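import Vale.Agent.P032.H246.CertL

/-!
# P032, alternating points: certificate (generated)
-/

set_option maxRecDepth 100000

noncomputable section

namespace Vale.Agent.P032.H246.M0

open Vale.Agent.P032.H139.Lrat Vale.Agent.P032.H246

def cs : List ℕ := [117,
  1460,
  2132,
  2804,
  3475,
  3810,
  6,
  118,
  230,
  342,
  566]

def e0 : List ℕ := [2182752, 2177376, 2128992]

def ci : List ℕ := inlM false cs (ims Lem.C0 e0 (pts 0))

def ds : List ℕ := [10218702384817765435680628290748613458265350453429542612493041881278524886369096016818984783322294789577433327842265575649138882500575199542984559607218336872038429045509558663769793133795138494375185186532064890845853749530218856391110938974453986086436459043203870933208875495579361330830770176,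
  1404447761611184302913519680303925573139044514798677009948672509044786529730476274474284979081308875165000889686495260606709295068862629863225370551870891596701311667381761603721111090634735110308227210563164107569048052205800491261514946176100212790338675864723330454999587858894372783631526221325189251072,
  1329227995784915872903807060280344576,
  351111940402796075728379920075981393284761128699669252487168127261196632432619068618571244770327218791250222421623815151677323767215657465806342637967722899175327916845440400930277772658683777577056802640791026892262013051450122815378736544025053197584668966180832613749896964723593195907881555331297312768,
  79228162514264337593543950336,
  20282409603651670423947251286016,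
  21944496275174754733023745004748837080297570543729328280448007953824789527038691788660702798145451174453138901351488446979832735450978591612896414872982681198457994802840025058142360791167736098566050165049439180766375815715632675961171034001565824849041810386302038359368560295224574744242597208206082048,
  87777985100699018932094980018995348321190282174917313121792031815299158108154767154642811192581804697812555605405953787919330941803914366451585659491930724793831979211360100232569443164670944394264200660197756723065503262862530703844684136006263299396167241545208153437474241180898298976970388832824328192,
  0]

def hs : List ℕ := [5512393,
  138,
  442833,
  118,
  378322,
  410066,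
  56,
  89,
  729423738]

def tr : Db := build 5 (ci ++ ds) 0 (fun t _ => t)

theorem ok : check 5 8 tr ci hs = true := by decide +kernel

theorem no {S : Type} {T : Nd → Fin 6 → Prop} {L : S → Nd → Fin 6 → Fin 6 → Prop} (h : FS T L)
    (hp : ∀ c : Fin 6, T (some 0) c ↔ (c.val < 0 ∨ c = 5)) : False := by
  refine check_sound ok (Am T L) ?_
  refine inlM_sat h (fun e => by cases e) ?_ cs
  refine ims_sat h Lem.L0 ?_ e0
  exact pts_sat hp

end Vale.Agent.P032.H246.M0
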