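import Vale.Agent.P032.H246.CertL

/-!
# P032, alternating points: certificate (generated)
-/

set_option maxRecDepth 100000

noncomputable section

namespace Vale.Agent.P032.H246.M1

open Vale.Agent.P032.H139.Lrat Vale.Agent.P032.H246

def cs : List ℕ := [677,
  1348,
  2020,
  2692,
  3363,
  3810,
  6,
  118,
  230,
  342,
  566]

def e1 : List ℕ := [2177376, 2128992, 2182752]

def ci : List ℕ := inlM false cs (ims Lem.C1 e1 (pts 1))

def ds : List ℕ := [10218702384817765435680628290748613458265350453429542612493041881278524886369096016818984783322294789577433327842265575649138882500575199542984559607218336872038429045509558663769793133795138494375185186532064890845853749530218856391110938974453986086436459043203870933208875495579361330830770176,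
  342882754299605542703496015699200579379649539745770754382000124278512336359979559197823481221022674600830295333617006984059886491421540493951506482390354393725906168794375391533474387361995876540094533828897487199474622120556760561893297406274466013266278287285969349365133754612883980378790581378220032,
  332306998946228968225951765070086144,
  85720688574901385675874003924800144844912384936442688595500031069628084089994889799455870305255668650207573833404251746014971622855385123487876620597588598431476542198593847883368596840498969135023633457224371799868655530139190140473324351568616503316569571821492337341283438653220995094697645344555008,
  5070602400912917605986812821504,
  19807040628566084398385987584,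
  21430172143725346418968500981200036211228096234110672148875007767407021022498722449863967576313917162551893458351062936503742905713846280871969155149397149607869135549648461970842149210124742283755908364306092949967163882534797535118331087892154125829142392955373084335320859663305248773674411336138752,
  5357543035931336604742125245300009052807024058527668037218751941851755255624680612465991894078479290637973364587765734125935726428461570217992288787349287401967283887412115492710537302531185570938977091076523237491790970633699383779582771973038531457285598238843271083830214915826312193418602834034688,
  0]

def hs : List ℕ := [5512393,
  138,
  410097,
  118,
  377330,
  443890,
  88,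
  57,
  729422683]

def tr : Db := build 5 (ci ++ ds) 0 (fun t _ => t)

theorem ok : check 5 8 tr ci hs = true := by decide +kernel

theorem no {S : Type} {T : Nd → Fin 6 → Prop} {L : S → Nd → Fin 6 → Fin 6 → Prop} (h : FS T L)
    (hp : ∀ c : Fin 6, T (some 0) c ↔ (c.val < 1 ∨ c = 5)) : False := by
  refine check_sound ok (Am T L) ?_
  refine inlM_sat h (fun e => by cases e) ?_ cs
  refine ims_sat h Lem.L1 ?_ e1
  exact pts_sat hp

end Vale.Agent.P032.H246.M1
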