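import Vale.Agent.P032.H246.CertL

/-!
# P032, alternating points: certificate (generated)
-/

set_option maxRecDepth 100000

noncomputable section

namespace Vale.Agent.P032.H246.M2

open Vale.Agent.P032.H139.Lrat Vale.Agent.P032.H246

def cs : List ℕ := [3108672,
  5173056,
  6205248,
  7237440]

def e4 : List ℕ := [2182752]

def e3 : List ℕ := [2182752]

def e2 : List ℕ := [2182668, 2182752]

def ci : List ℕ := inlM false cs (ims Lem.C2 e2 (ims Lem.C3 e3 (ims Lem.C4 e4 (pts 2))))

def ds : List ℕ := [33554432,
  134217728,
  1237940039285380274899124224,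
  649037107316853453566312041152512,
  42535295865117307932921825928971026432,
  10889035741470030830827987437816582766592,
  2787593149816327892691964784081045188247552,
  0]

def hs : List ℕ := [142668,
  175436,
  240972,
  16,
  48,
  80,
  112,
  7133968977]

def tr : Db := build 5 (ci ++ ds) 0 (fun t _ => t)

theorem ok : check 5 8 tr ci hs = true := by decide +kernel

theorem no {S : Type} {T : Nd → Fin 6 → Prop} {L : S → Nd → Fin 6 → Fin 6 → Prop} (h : FS T L)
    (hp : ∀ c : Fin 6, T (some 0) c ↔ (c.val < 2 ∨ c = 5)) : False := by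
  refine check_sound ok (Am T L) ?_
  refine inlM_sat h (fun e => by cases e) ?_ cs
  refine ims_sat h Lem.L2 ?_ e2
  refine ims_sat h Lem.L3 ?_ e3
  refine ims_sat h Lem.L4 ?_ e4
  exact pts_sat hp

end Vale.Agent.P032.H246.M2
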