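import Mathlib
import Vale.Agent.P032.H89.Sys7

/-!
# P032, alternating points: the seven-node system in normal form, symmetries

`FS T L`: `T p c` = colour `c` in the palette of the node `p`, `L s p j c` = colour `c` in the letter of
the node `p` in the slot `j` in the state `s`; the missing colour is `5`.
-/

namespace Vale.Agent.P032.H246

open Vale.Agent.P032.H89

/-- nodes -/
abbrev Nd : Type := Option (Fin 6)

/-- the slot `j` of `p` is directed to `q` -/
def ad : Nd → Fin 6 → Nd → Bool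
  | none, j, some k => j == k
  | some k, j, none => j == k + 3
  | some k, j, some l => (l == k + 1 && j == k + 2) || (l == k - 1 && j == k - 2)
  | none, _, none => false

/-- neighbours -/
def nb : Nd → Nd → Bool
  | none, some _ => true
  | some _, none => true
  | some k, some l => l == k + 1 || l == k - 1
  | none, none => false

/-- the normalised system -/
structure FS {S : Type} (T : Nd → Fin 6 → Prop) (L : S → Nd → Fin 6 → Fin 6 → Prop) : Prop where
  nz : ∀ c, T none c ↔ c ≠ 5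
  nv : ∀ k, T (some k) 5
  nv' : ∀ k, ∃ c, ¬ T (some k) c
  ne : ∀ s p j, ∃ c, L s p j c
  hex : ∀ s p j c, L s p j c → ¬ L s p (j + 1) c
  adj : ∀ s p j q c, ad p j q = true → L s p j c → T q c
  two : ∀ s p j c, L s p j c → T p c → ∃ d, L s p j d ∧ d ≠ c
  rh : ∀ s p q j c, nb p q = true → L s p j c → ¬ L s q j c
  alt : ∀ s j, L s none j 5 ↔ ¬ L s none (j + 1) 5
  biex : ∀ s s' p j j', (∀ c, L s p j c → T p c) → (∀ c, L s' p j' c → T p c) →
    ∃ c, L s p j c ∧ L s' p j' c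
  deg : ∀ p, (∃ x y : Fin 6, x ≠ y ∧ ∀ c, c ≠ x → c ≠ y → T p c) → ∀ a, T p a → ∃ d e, T p d ∧ T p e ∧
    d ≠ a ∧ e ≠ a ∧ d ≠ e ∧ ∀ s j, ¬ (∀ c, L s p j c ↔ (c = a ∨ c = d)) ∧
      ¬ (∀ c, L s p j c ↔ (c = a ∨ c = e))
  m3 : ∀ a, a ≠ 5 → ∀ k (i : Bool) (t : Prop), ∃ s, (L s none 0 5 ↔ t) ∧
    ¬ L s (some k) (bif i then k + 2 else k - 2) a

/-- dihedral maps of the slots -/
def dj (r : Fin 6) (f : Bool) (j : Fin 6) : Fin 6 := bif f then r - j else r + j

/-- dihedral maps of the nodes -/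
def dp (r : Fin 6) (f : Bool) : Nd → Nd
  | none => none
  | some k => some (dj r f k)

theorem dj_surj : ∀ (r : Fin 6) (f : Bool) (j : Fin 6), ∃ i, dj r f i = j := by decide

theorem dj_succ : ∀ (r : Fin 6) (f : Bool) (j : Fin 6),
    dj r f (j + 1) = bif f then dj r f j - 1 else dj r f j + 1 := by decide

theorem ad_dp : ∀ (r : Fin 6) (f : Bool) (p : Nd) (j : Fin 6) (q : Nd),
    ad (dp r f p) (dj r f j) (dp r f q) = ad p j q := by
  intro r f p j q
  rcases p with _ | k <;> rcases q with _ | l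
  · rfl
  · change (dj r f j == dj r f l) = (j == l)
    revert r f j l; decide
  · change (dj r f j == dj r f k + 3) = (j == k + 3)
    revert r f j k; decide
  · change ((dj r f l == dj r f k + 1 && dj r f j == dj r f k + 2) ||
      (dj r f l == dj r f k - 1 && dj r f j == dj r f k - 2)) =
      ((l == k + 1 && j == k + 2) || (l == k - 1 && j == k - 2))
    revert r f j k l; decide +kernel

theorem nb_dp : ∀ (r : Fin 6) (f : Bool) (p q : Nd), nb (dp r f p) (dp r f q) = nb p q := by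
  intro r f p q
  rcases p with _ | k <;> rcases q with _ | l
  · rfl
  · rfl
  · rfl
  · change (dj r f l == dj r f k + 1 || dj r f l == dj r f k - 1) = (l == k + 1 || l == k - 1)
    revert r f k l; decide

variable {S : Type} {T : Nd → Fin 6 → Prop} {L : S → Nd → Fin 6 → Fin 6 → Prop}

theorem FS.alt_par (h : FS T L) (s : S) : ∀ j : Fin 6,
    (L s none j 5 ↔ bif (j.val % 2 == 0) then L s none 0 5 else ¬ L s none 0 5) := by
  have e0 := h.alt s 0
  have e1 := h.alt s 1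
  have e2 := h.alt s 2
  have e3 := h.alt s 3
  have e4 := h.alt s 4
  have e5 := h.alt s 5
  intro j
  fin_cases j <;> simp_all <;> tauto

/-- the group acts -/
theorem FS.act (h : FS T L) (r : Fin 6) (f : Bool) {ρ : Fin 6 → Fin 6} (hρ : Function.Bijective ρ)
    (h5 : ρ 5 = 5) :
    FS (fun p c => T (dp r f p) (ρ c)) (fun s p j c => L s (dp r f p) (dj r f j) (ρ c)) := by
  have hs : ∀ c, ∃ c', ρ c' = c := hρ.2
  have hi : ∀ {a b : Fin 6}, ρ a = ρ b → a = b := fun e => hρ.1 e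
  have hne : ∀ {a b : Fin 6}, a ≠ b → ρ a ≠ ρ b := fun e e' => e (hi e')
  have hd5 : ∀ {c : Fin 6}, ρ c ≠ 5 ↔ c ≠ 5 := by
    intro c
    constructor
    · intro e e'; exact e (by rw [e', h5])
    · intro e e'; exact e (hi (by rw [e', h5]))
  refine ⟨?_, ?_, ?_, ?_, ?_, ?_, ?_, ?_, ?_, ?_, ?_, ?_⟩
  · intro c
    change T none (ρ c) ↔ _
    rw [h.nz, hd5]
  · intro k
    change T (some _) (ρ 5)
    rw [h5]; exact h.nv _
  · intro k
    obtain ⟨c, hc⟩ := h.nv' (dj r f k)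
    obtain ⟨c', rfl⟩ := hs c
    exact ⟨c', hc⟩
  · intro s p j
    obtain ⟨c, hc⟩ := h.ne s (dp r f p) (dj r f j)
    obtain ⟨c', rfl⟩ := hs c
    exact ⟨c', hc⟩
  · intro s p j c h1 h2
    change L s _ (dj r f (j + 1)) _ at h2
    rw [dj_succ] at h2
    cases f
    · exact h.hex s _ _ _ h1 h2
    · change L s _ (dj r true j - 1) _ at h2
      refine h.hex s _ _ _ h2 ?_
      rw [sub_add_cancel]
      exact h1
  · intro s p j q c h1 h2
    exact h.adj s (dp r f p) (dj r f j) (dp r f q) _ (by rw [ad_dp]; exact h1) h2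
  · intro s p j c h1 h2
    obtain ⟨d, h3, h4⟩ := h.two s _ _ _ h1 h2
    obtain ⟨d', rfl⟩ := hs d
    exact ⟨d', h3, fun e => h4 (by rw [e])⟩
  · intro s p q j c h1 h2 h3
    exact h.rh s (dp r f p) (dp r f q) _ _ (by rw [nb_dp]; exact h1) h2 h3
  · intro s j
    change L s none (dj r f j) (ρ 5) ↔ ¬ L s none (dj r f (j + 1)) (ρ 5)
    rw [h5, dj_succ]
    cases f
    · exact h.alt s _
    · change _ ↔ ¬ L s none (dj r true j - 1) 5
      have h1 := h.alt s (dj r true j - 1)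
      rw [sub_add_cancel] at h1
      tauto
  · intro s s' p j j' h1 h2
    obtain ⟨c, h3, h4⟩ := h.biex s s' (dp r f p) (dj r f j) (dj r f j')
      (fun c hc => by obtain ⟨c', rfl⟩ := hs c; exact h1 c' hc)
      (fun c hc => by obtain ⟨c', rfl⟩ := hs c; exact h2 c' hc)
    obtain ⟨c', rfl⟩ := hs c
    exact ⟨c', h3, h4⟩
  · rintro p ⟨x, y, hxy, hall⟩ a ha
    obtain ⟨d, e, h1, h2, h3, h4, h5', h6⟩ := h.deg (dp r f p) ⟨ρ x, ρ y, hne hxy, fun c hcx hcy => by
      obtain ⟨c', rfl⟩ := hs c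
      exact hall c' (fun e => hcx (by rw [e])) (fun e => hcy (by rw [e]))⟩ (ρ a) ha
    obtain ⟨d', rfl⟩ := hs d
    obtain ⟨e', rfl⟩ := hs e
    refine ⟨d', e', h1, h2, fun e => h3 (by rw [e]), fun e => h4 (by rw [e]),
      fun e => h5' (by rw [e]), fun s j => ?_⟩
    obtain ⟨h7, h8⟩ := h6 s (dj r f j)
    refine ⟨fun h9 => h7 fun c => ?_, fun h9 => h8 fun c => ?_⟩
    · obtain ⟨c', rfl⟩ := hs c
      rw [show (ρ c' = ρ a) = (c' = a) from propext ⟨hi, fun e => by rw [e]⟩,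
        show (ρ c' = ρ d') = (c' = d') from propext ⟨hi, fun e => by rw [e]⟩]
      exact h9 c'
    · obtain ⟨c', rfl⟩ := hs c
      rw [show (ρ c' = ρ a) = (c' = a) from propext ⟨hi, fun e => by rw [e]⟩,
        show (ρ c' = ρ e') = (c' = e') from propext ⟨hi, fun e => by rw [e]⟩]
      exact h9 c'
  · intro a ha k i t
    have key : ∀ (r : Fin 6) (f : Bool) (k : Fin 6) (i : Bool),
        dj r f (bif i then k + 2 else k - 2) =
          bif (i != f) then dj r f k + 2 else dj r f k - 2 := by decide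
    have hr : ∀ s, (L s none r 5 ↔ t) ↔ (L s none 0 5 ↔ bif (r.val % 2 == 0) then t else ¬ t) := by
      intro s
      have := h.alt_par s r
      rw [this]
      cases (r.val % 2 == 0) <;> simp only [cond_true, cond_false] <;> tauto
    obtain ⟨s, h1, h2⟩ := h.m3 (ρ a) (hd5.2 ha) (dj r f k) (i != f) (bif (r.val % 2 == 0) then t else ¬ t)
    refine ⟨s, ?_, ?_⟩
    · change L s none (dj r f 0) (ρ 5) ↔ t
      have h0 : dj r f 0 = r := by cases f <;> simp [dj]
      rw [h5, h0]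
      exact (hr s).2 h1
    · change ¬ L s (some (dj r f k)) (dj r f (bif i then k + 2 else k - 2)) (ρ a)
      rw [key]
      exact h2

/-- normal form of a system -/
theorem FS.of_sys {m : Fin 6} {N : Option (Fin 6) → Set (Fin 6)} {Q : Set State} (h : Sys m N Q)
    (π : Equiv.Perm (Fin 6)) (hπ : π 5 = m) :
    FS (S := Q) (fun p c => π c ∈ N p) (fun s p j c => π c ∈ s.1 p j) := by
  have hs : ∀ c, ∃ c', π c' = c := π.surjective
  refine ⟨?_, ?_, ?_, ?_, ?_, ?_, ?_, ?_, ?_, ?_, ?_, ?_⟩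
  · intro c
    change π c ∈ N none ↔ _
    rw [h.nz, Set.mem_compl_iff, Set.mem_singleton_iff, ← hπ]
    exact (π.injective.eq_iff).not
  · intro k
    change π 5 ∈ _
    rw [hπ]; exact h.nv k
  · intro k
    obtain ⟨c, hc⟩ := h.nv' k
    obtain ⟨c', rfl⟩ := hs c
    exact ⟨c', hc⟩
  · rintro ⟨σ, hσ⟩ p j
    obtain ⟨c, hc⟩ := h.ne σ hσ p j
    obtain ⟨c', rfl⟩ := hs c
    exact ⟨c', hc⟩
  · rintro ⟨σ, hσ⟩ p j c h1 h2
    exact Set.disjoint_left.1 (h.hex σ hσ p j) h1 h2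
  · rintro ⟨σ, hσ⟩ p j q c h1 h2
    rcases p with _ | k <;> rcases q with _ | l
    · cases h1
    · have e : j = l := by simpa [ad] using h1
      subst e
      exact h.inz σ hσ _ h2
    · have e : j = k + 3 := by simpa [ad] using h1
      subst e
      exact h.inv σ hσ _ h2
    · have e : (l = k + 1 ∧ j = k + 2) ∨ (l = k - 1 ∧ j = k - 2) := by simpa [ad] using h1
      rcases e with ⟨rfl, rfl⟩ | ⟨rfl, rfl⟩
      · exact h.inr σ hσ _ h2
      · exact h.inl σ hσ _ h2
  · rintro ⟨σ, hσ⟩ p j c h1 h2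
    obtain ⟨d, h3, h4⟩ := h.two σ hσ p j _ h1 h2
    obtain ⟨d', rfl⟩ := hs d
    exact ⟨d', h3, fun e => h4 (by rw [e])⟩
  · rintro ⟨σ, hσ⟩ p q j c h1 h2 h3
    rcases p with _ | k <;> rcases q with _ | l
    · cases h1
    · exact Set.disjoint_left.1 (h.rz σ hσ l j) h2 h3
    · exact Set.disjoint_left.1 (h.rz σ hσ k j) h3 h2
    · have e : l = k + 1 ∨ l = k - 1 := by simpa [nb] using h1
      rcases e with rfl | rfl
      · exact Set.disjoint_left.1 (h.rv σ hσ k j) h2 h3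
      · have h4 := h.rv σ hσ (k - 1) j
        rw [sub_add_cancel] at h4
        exact Set.disjoint_left.1 h4 h3 h2
  · rintro ⟨σ, hσ⟩ j
    change π 5 ∈ _ ↔ ¬ π 5 ∈ _
    rw [hπ]
    exact h.alt σ hσ j
  · rintro ⟨σ, hσ⟩ ⟨σ', hσ'⟩ p j j' h1 h2
    have h3 := h.biex σ hσ σ' hσ' p j j'
      (fun c hc => by obtain ⟨c', rfl⟩ := hs c; exact h1 c' hc)
      (fun c hc => by obtain ⟨c', rfl⟩ := hs c; exact h2 c' hc)
    rw [Set.not_disjoint_iff] at h3
    obtain ⟨c, h4, h5⟩ := h3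
    obtain ⟨c', rfl⟩ := hs c
    exact ⟨c', h4, h5⟩
  · rintro p ⟨x, y, hxy, hall⟩ a ha
    have hcard : 4 ≤ (N p).ncard := by
      have h1 : (((({x, y} : Finset (Fin 6))ᶜ).image π : Finset (Fin 6)) : Set (Fin 6)) ⊆ N p := by
        intro c hc
        rw [Finset.coe_image] at hc
        obtain ⟨c', hc', rfl⟩ := hc
        rw [Finset.mem_coe, Finset.mem_compl, Finset.mem_insert, Finset.mem_singleton, not_or] at hc'
        exact hall c' hc'.1 hc'.2
      have h2 := Set.ncard_le_ncard h1 (Set.toFinite _)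
      rw [Set.ncard_coe_finset, Finset.card_image_of_injective _ π.injective, Finset.card_compl,
        Finset.card_pair hxy, Fintype.card_fin] at h2
      exact h2
    obtain ⟨d, e, h1, h2, h3, h4, h5, h6⟩ := h.deg p hcard (π a) ha
    obtain ⟨d', rfl⟩ := hs d
    obtain ⟨e', rfl⟩ := hs e
    have tr : ∀ {σ : State} {j : Fin 6} {d' : Fin 6}, (∀ c, π c ∈ σ p j ↔ (c = a ∨ c = d')) →
        σ p j = {π a, π d'} := by
      intro σ j d' h9
      ext c
      obtain ⟨c', rfl⟩ := hs c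
      rw [h9 c', Set.mem_insert_iff, Set.mem_singleton_iff, π.injective.eq_iff, π.injective.eq_iff]
    refine ⟨d', e', h1, h2, fun e => h3 (by rw [e]), fun e => h4 (by rw [e]),
      fun e => h5 (by rw [e]), ?_⟩
    rintro ⟨σ, hσ⟩ j
    obtain ⟨h7, h8⟩ := h6 σ hσ j
    exact ⟨fun h9 => h7 (tr h9), fun h9 => h8 (tr h9)⟩
  · intro a ha k i t
    have ha' : π a ≠ m := fun e => ha (π.injective (by rw [e, hπ]))
    cases i
    · obtain ⟨σ, hσ, h1, h2⟩ := h.m3l (π a) ha' k t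
      refine ⟨⟨σ, hσ⟩, ?_, h2⟩
      change π 5 ∈ _ ↔ t
      rw [hπ]; exact h1
    · obtain ⟨σ, hσ, h1, h2⟩ := h.m3r (π a) ha' k t
      refine ⟨⟨σ, hσ⟩, ?_, h2⟩
      change π 5 ∈ _ ↔ t
      rw [hπ]; exact h1

end Vale.Agent.P032.H246
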