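import Vale.Agent.P032.H246.Inp

/-!
# P032, alternating points: lemmas from one state and their images
-/

noncomputable section

namespace Vale.Agent.P032.H246

open Vale.Agent.P032.H139.Lrat (Sat lit br br_true br_false Db build input input_sound steps
  steps_sound check check_sound)

variable {S : Type} {T : Nd → Fin 6 → Prop} {L : S → Nd → Fin 6 → Fin 6 → Prop}

/-- literal of a global atom -/
def gl (T : Nd → Fin 6 → Prop) (L : S → Nd → Fin 6 → Fin 6 → Prop) (l : ℕ) : Prop :=
  if l % 2 = 0 then gv T L (l / 2) else ¬ gv T L (l / 2)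

/-- the clause `C` (a list of literals) holds -/
def GS (T : Nd → Fin 6 → Prop) (L : S → Nd → Fin 6 → Fin 6 → Prop) (C : List ℕ) : Prop :=
  ∃ l ∈ C, l < 980 ∧ gl T L l

theorem lit_gl {F : ℕ → Prop} {l : ℕ} (hl : l < 980) : lit (asg T L F) l = true ↔ gl T L l := by
  have h1 : l / 2 < 490 := by omega
  have h2 := asg_g (T := T) (L := L) (F := F) h1
  rcases Nat.mod_two_eq_zero_or_one l with h | h
  · have h3 : lit (asg T L F) l = asg T L F (l / 2) := by
      conv_lhs => rw [show l = 2 * (l / 2) by omega]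
      exact lit_even _ _
    have h4 : gl T L l = gv T L (l / 2) := if_pos h
    rw [h3, h4]; exact h2
  · have h3 : lit (asg T L F) l = !(asg T L F (l / 2)) := by
      conv_lhs => rw [show l = 2 * (l / 2) + 1 by omega]
      exact lit_odd _ _
    have h4 : gl T L l = ¬ gv T L (l / 2) := if_neg (by omega)
    rw [h3, h4, Bool.not_eq_true', ← Bool.not_eq_true, h2]

/-- mask of a list of literals -/
def mk (C : List ℕ) : ℕ :=
  @List.rec ℕ (fun _ => ℕ) 0 (fun l _ ih => Nat.lor (Nat.shiftLeft 1 l) ih) C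

theorem mk_bit : ∀ (C : List ℕ) {l : ℕ}, (mk C).testBit l = true → l ∈ C := by
  intro C
  induction C with
  | nil => intro l h; exact absurd h (by change ¬ (Nat.testBit 0 l = true); simp)
  | cons x C ih =>
    intro l h
    have h : ((1 <<< x) ||| mk C).testBit l = true := h
    rw [Nat.testBit_or, Bool.or_eq_true] at h
    rcases h with h | h
    · rw [Nat.one_shiftLeft, Nat.testBit_two_pow] at h
      have : x = l := by simpa using h
      rw [this]; exact List.mem_cons_self
    · exact List.mem_cons_of_mem _ (ih h)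

/-- all literals are global -/
def bd (C : List ℕ) : Bool :=
  @List.rec ℕ (fun _ => Bool) true (fun l _ ih => br (Nat.blt l 980) ih false) C

theorem bd_lt : ∀ (C : List ℕ), bd C = true → ∀ l ∈ C, l < 980 := by
  intro C
  induction C with
  | nil => intro _ l h; cases h
  | cons x C ih =>
    intro h l hl
    have h : br (Nat.blt x 980) (bd C) false = true := h
    cases h1 : Nat.blt x 980
    · rw [h1, br_false] at h; cases h
    · rw [h1, br_true] at h
      rcases List.mem_cons.1 hl with rfl | h2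
      · simpa [Nat.blt_eq] using h1
      · exact ih h l h2

/-- masks of a list of codes -/
def inl (cs tl : List ℕ) : List ℕ := @List.rec ℕ (fun _ => List ℕ) tl (fun x _ ih => inp x :: ih) cs

theorem inl_sat (h : FS T L) (s : S) {tl : List ℕ} (ht : ∀ C ∈ tl, Sat (asg T L (lF L s)) C) :
    ∀ cs : List ℕ, ∀ C ∈ inl cs tl, Sat (asg T L (lF L s)) C := by
  intro cs
  induction cs with
  | nil => exact ht
  | cons x cs ih =>
    intro C hC
    have hC : C ∈ inp x :: inl cs tl := hC
    rcases List.mem_cons.1 hC with rfl | h2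
    · exact inp_sat h s x
    · exact ih C h2

/-- the two facts about the state: `a` not in the letter, type -/
def dem (a k : ℕ) (i t : Bool) : List ℕ :=
  [bl (N1 a) (aL (Nat.succ k) (Nat.mod (Nat.add k (br i 2 4)) 6)),
    bl (br t (P1 5) (N1 5)) (aL 0 0)]

theorem dem_sat (s : S) {a k : ℕ} (ha : a < 6) (hk : k < 6) {i t : Bool}
    (h1 : L s none 0 5 ↔ t = true)
    (h2 : ¬ L s (some (fi k)) (bif i then fi k + 2 else fi k - 2) (fi a)) :
    ∀ C ∈ dem a k i t, Sat (asg T L (lF L s)) C := by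
  intro C hC
  have hC : C ∈ [bl (N1 a) (aL (k + 1) ((k + br i 2 4) % 6)), bl (br t (P1 5) (N1 5)) (aL 0 0)] := hC
  rcases List.mem_cons.1 hC with rfl | hC
  · refine sat_N N1_bit (Lf (Nat.mod_lt _ (by norm_num)) ha ?_)
    have e1 : nd (k + 1) = some (fi k) := by rw [nd_pos (by omega), Nat.add_sub_cancel]
    have e2 : fi ((k + br i 2 4) % 6) = bif i then fi k + 2 else fi k - 2 := by
      cases i
      · rw [br_false]
        interval_cases k <;> decide
      · rw [br_true]
        interval_cases k <;> decide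
    rw [e1, e2]; exact h2
  · have hC := List.mem_singleton.1 hC
    rw [hC]
    clear hC
    cases t
    · rw [br_false]
      refine sat_N (c := 5) N1_bit (Lf (p := 0) (j := 0) (c := 5) (by norm_num) (by norm_num) ?_)
      intro h3
      have := h1.1 h3
      cases this
    · rw [br_true]
      have h3 : L s (nd 0) (fi 0) (fi 5) := h1.2 rfl
      exact sat_P (c := 5) P1_bit (Lt (p := 0) (j := 0) (c := 5) (by norm_num) (by norm_num) h3)

/-- check of a derivation of the clause `C` for one state -/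
def chk (B fuel : ℕ) (t : Db) (cs hs C : List ℕ) : Bool :=
  br (input t cs 0)
    (br (steps B (Nat.sub (Nat.shiftLeft 1 B) 1) fuel t hs cs.length)
      (br (Nat.blt 0 (Nat.add cs.length hs.length))
        (br (Nat.beq (t.get (Nat.sub (Nat.add cs.length hs.length) 1)) (mk C)) (bd C) false) false) false)
    false

theorem br_and {a b : Bool} (h : br a b false = true) : a = true ∧ b = true := by
  cases a
  · cases h
  · exact ⟨rfl, h⟩

theorem lemma_of (h : FS T L) {a k : ℕ} (ha : a < 5) (hk : k < 6) {i tt : Bool} {B fuel : ℕ} {t : Db}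
    {cs hs C : List ℕ} (hc : chk B fuel t (inl cs (dem a k i tt)) hs C = true) : GS T L C := by
  unfold chk at hc
  obtain ⟨h1, hc⟩ := br_and hc
  obtain ⟨h2, hc⟩ := br_and hc
  obtain ⟨h3, hc⟩ := br_and hc
  obtain ⟨h4, h5⟩ := br_and hc
  obtain ⟨s, h6, h7⟩ := h.m3 (fi a) (by
    intro e
    have := congrArg Fin.val e
    change a % 6 = 5 at this
    omega) (fi k) i (tt = true)
  have h8 := inl_sat h s (dem_sat (T := T) s (by omega) hk h6 h7) cs
  have h9 := input_sound _ 0 h1 h8 (fun m hm => absurd hm (Nat.not_lt_zero m))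
  rw [Nat.zero_add] at h9
  have h10 := steps_sound (a := asg T L (lF L s)) hs _ h9 h2
  rw [Nat.blt_eq] at h3
  have h3 : 0 < (inl cs (dem a k i tt)).length + hs.length := h3
  obtain ⟨l, h11, h12⟩ := h10 ((inl cs (dem a k i tt)).length + hs.length - 1) (by omega)
  rw [Nat.beq_eq] at h4
  have h4 : t.get ((inl cs (dem a k i tt)).length + hs.length - 1) = mk C := h4
  rw [h4] at h11
  have h13 := mk_bit C h11
  exact ⟨l, h13, bd_lt C h5 l h13, (lit_gl (bd_lt C h5 l h13)).1 h12⟩

/-! ### images -/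

/-- digit -/
def rn (w c : ℕ) : ℕ := Nat.land (Nat.shiftRight w (Nat.mul 3 c)) 7

/-- image of a mask -/
def pm (w m : ℕ) : ℕ :=
  Nat.lor (Nat.mul (bt m 0) (Nat.shiftLeft 1 (rn w 0))) <|
  Nat.lor (Nat.mul (bt m 1) (Nat.shiftLeft 1 (rn w 1))) <|
  Nat.lor (Nat.mul (bt m 2) (Nat.shiftLeft 1 (rn w 2))) <|
  Nat.lor (Nat.mul (bt m 3) (Nat.shiftLeft 1 (rn w 3))) <|
  Nat.lor (Nat.mul (bt m 4) (Nat.shiftLeft 1 (rn w 4)))
    (Nat.mul (bt m 5) (Nat.shiftLeft 1 (rn w 5)))

/-- `w` is a permutation which fixes `5` -/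
def vw (w : ℕ) : Bool := br (Nat.beq (pm w 63) 63) (Nat.beq (rn w 5) 5) false

theorem bt_eq (m c : ℕ) : bt m c = if m.testBit c then 1 else 0 := by
  change (m >>> c) &&& 1 = _
  rw [Nat.and_one_is_mod, Nat.testBit_eq_decide_div_mod_eq, Nat.shiftRight_eq_div_pow]
  rcases Nat.mod_two_eq_zero_or_one (m / 2 ^ c) with h | h <;> simp [h]

theorem tb_term {m c r x : ℕ} :
    (Nat.mul (bt m c) (Nat.shiftLeft 1 r)).testBit x = (m.testBit c && decide (r = x)) := by
  rw [bt_eq]
  change ((if m.testBit c = true then 1 else 0) * (1 <<< r)).testBit x = _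
  rw [Nat.one_shiftLeft]
  cases m.testBit c
  · simp
  · simp [Nat.testBit_two_pow]

theorem pm_bit {w m x : ℕ} : (pm w m).testBit x = true ↔ ∃ c < 6, m.testBit c = true ∧ rn w c = x := by
  unfold pm
  change ((_ : ℕ) ||| ((_ : ℕ) ||| ((_ : ℕ) ||| ((_ : ℕ) ||| ((_ : ℕ) ||| (_ : ℕ)))))).testBit x = true ↔ _
  rw [Nat.testBit_or, Nat.testBit_or, Nat.testBit_or, Nat.testBit_or, Nat.testBit_or,
    tb_term, tb_term, tb_term, tb_term, tb_term, tb_term]
  simp only [Bool.or_eq_true, Bool.and_eq_true, decide_eq_true_eq]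
  constructor
  · rintro (h | h | h | h | h | h)
    · exact ⟨0, by norm_num, h⟩
    · exact ⟨1, by norm_num, h⟩
    · exact ⟨2, by norm_num, h⟩
    · exact ⟨3, by norm_num, h⟩
    · exact ⟨4, by norm_num, h⟩
    · exact ⟨5, by norm_num, h⟩
  · rintro ⟨c, hc, h⟩
    interval_cases c <;> tauto

section
variable {w : ℕ} (hw : vw w = true)
include hw

theorem vw_one : pm w 63 = 63 ∧ rn w 5 = 5 := by
  obtain ⟨h1, h2⟩ := br_and hw
  exact ⟨Nat.eq_of_beq_eq_true h1, Nat.eq_of_beq_eq_true h2⟩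

theorem rn_lt {c : ℕ} (hc : c < 6) : rn w c < 6 := by
  have h1 : (pm w 63).testBit (rn w c) = true := pm_bit.2 ⟨c, hc, by
    interval_cases c <;> decide, rfl⟩
  rw [(vw_one hw).1] at h1
  by_contra h2
  have h3 : (63 : ℕ) < 2 ^ rn w c := by
    calc 63 < 2 ^ 6 := by norm_num
      _ ≤ 2 ^ rn w c := Nat.pow_le_pow_right (by norm_num) (not_lt.1 h2)
  rw [Nat.testBit_lt_two_pow h3] at h1
  cases h1

/-- the permutation -/
def rr (w : ℕ) (c : Fin 6) : Fin 6 := fi (rn w c.val)

theorem rr_val (c : Fin 6) : (rr w c).val = rn w c.val := Nat.mod_eq_of_lt (rn_lt hw c.isLt)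

theorem rr_five : rr w 5 = 5 := by
  apply Fin.ext
  rw [rr_val hw]
  exact (vw_one hw).2

theorem rr_bij : Function.Bijective (rr w) := by
  rw [Function.Bijective, ← Finite.injective_iff_surjective, and_self]
  rw [Finite.injective_iff_surjective]
  intro x
  have h1 : (pm w 63).testBit x.val = true := by
    rw [(vw_one hw).1]
    revert x; decide
  obtain ⟨c, hc, -, h2⟩ := pm_bit.1 h1
  refine ⟨⟨c, hc⟩, Fin.ext ?_⟩
  rw [rr_val hw]; exact h2

theorem pm_rr {m : ℕ} (c : Fin 6) : (pm w m).testBit (rr w c).val = m.testBit c.val := by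
  rw [Bool.eq_iff_iff, pm_bit]
  constructor
  · rintro ⟨c', hc', h1, h2⟩
    have : (⟨c', hc'⟩ : Fin 6) = c := (rr_bij hw).1 (Fin.ext (by rw [rr_val hw]; exact h2))
    rw [← this]; exact h1
  · intro h
    exact ⟨c.val, c.isLt, h, by rw [rr_val hw]⟩

end

theorem pm_lt {w m : ℕ} (hw : vw w = true) : pm w m < 64 := by
  have : pm w m < 2 ^ 6 := by
    apply Nat.lt_pow_two_of_testBit
    intro i hi
    cases h : (pm w m).testBit i
    · rfl
    · obtain ⟨c, hc, -, h2⟩ := pm_bit.1 h
      have := rn_lt hw hc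
      omega
  simpa using this

/-- image of a node -/
def dn (r f p : ℕ) : ℕ :=
  br (Nat.beq p 0) 0
    (Nat.succ (Nat.mod (br (Nat.beq f 1) (Nat.sub (Nat.add r 6) (Nat.sub p 1))
      (Nat.add r (Nat.sub p 1))) 6))

theorem dn_nd : ∀ r < 6, ∀ f < 2, ∀ p < 7,
    dn r f p < 7 ∧ nd (dn r f p) = dp (fi r) (Nat.beq f 1) (nd p) := by decide +kernel

/-- image of an atom -/
def iv (r f w v : ℕ) : ℕ :=
  br (Nat.blt v 42) (Nat.add (Nat.mul 6 (dn r f (Nat.div v 6))) (rn w (Nat.mod v 6)))
    (aX (dn r f (Nat.div (Nat.sub v 42) 64)) (pm w (Nat.mod (Nat.sub v 42) 64)))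

theorem iv_gv {r f w v : ℕ} (hr : r < 6) (hf : f < 2) (hw : vw w = true) (hv : v < 490) :
    iv r f w v < 490 ∧ (gv T L (iv r f w v) ↔
      gv (fun p c => T (dp (fi r) (Nat.beq f 1) p) (rr w c))
        (fun s p j c => L s (dp (fi r) (Nat.beq f 1) p) (dj (fi r) (Nat.beq f 1) j) (rr w c)) v) := by
  unfold iv
  cases h1 : Nat.blt v 42
  · have h1 : ¬ v < 42 := by
      rw [Bool.eq_false_iff, ne_eq, Nat.blt_eq] at h1; exact h1
    rw [br_false]
    obtain ⟨h2, h3⟩ := dn_nd r hr f hf ((v - 42) / 64) (by omega)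
    have h4 : pm w ((v - 42) % 64) < 64 := pm_lt hw
    have h5 : (v - 42) % 64 < 64 := Nat.mod_lt _ (by norm_num)
    refine ⟨?_, ?_⟩
    · change 42 + 64 * dn r f ((v - 42) / 64) + pm w ((v - 42) % 64) < 490
      omega
    · have e1 : gv T L (42 + 64 * dn r f ((v - 42) / 64) + pm w ((v - 42) % 64)) =
          XX T L (nd (dn r f ((v - 42) / 64))) (pm w ((v - 42) % 64)) := by
        unfold gv
        rw [if_neg (by omega), show (42 + 64 * dn r f ((v - 42) / 64) + pm w ((v - 42) % 64) - 42) / 64 =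
          dn r f ((v - 42) / 64) by omega,
          show (42 + 64 * dn r f ((v - 42) / 64) + pm w ((v - 42) % 64) - 42) % 64 =
          pm w ((v - 42) % 64) by omega]
      change gv T L (42 + 64 * dn r f ((v - 42) / 64) + pm w ((v - 42) % 64)) ↔ _
      rw [e1]
      unfold gv
      rw [if_neg h1, h3]
      unfold XX
      have hsj := fun j => dj_surj (fi r) (Nat.beq f 1) j
      have hsc : ∀ c, ∃ c', rr w c' = c := (rr_bij hw).2
      constructor
      · rintro ⟨⟨s, j, h6⟩, h7⟩
        obtain ⟨j', rfl⟩ := hsj j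
        refine ⟨⟨s, j', fun c => ?_⟩, fun c hc => ?_⟩
        · have h8 := h6 (rr w c)
          rw [pm_rr hw] at h8
          exact h8
        · exact h7 _ (by rw [pm_rr hw]; exact hc)
      · rintro ⟨⟨s, j, h6⟩, h7⟩
        refine ⟨⟨s, dj (fi r) (Nat.beq f 1) j, fun c => ?_⟩, fun c hc => ?_⟩
        · obtain ⟨c', rfl⟩ := hsc c
          rw [pm_rr hw]; exact h6 c'
        · obtain ⟨c', rfl⟩ := hsc c
          rw [pm_rr hw] at hc
          exact h7 c' hc
  · have h1 : v < 42 := by
      rw [Nat.blt_eq] at h1; exact h1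
    rw [br_true]
    obtain ⟨h2, h3⟩ := dn_nd r hr f hf (v / 6) (by omega)
    have h4 : rn w (v % 6) < 6 := rn_lt hw (Nat.mod_lt _ (by norm_num))
    refine ⟨?_, ?_⟩
    · change 6 * dn r f (v / 6) + rn w (v % 6) < 490
      omega
    · have e1 : gv T L (6 * dn r f (v / 6) + rn w (v % 6)) =
          T (nd (dn r f (v / 6))) (fi (rn w (v % 6))) := by
        unfold gv
        rw [if_pos (by omega), show (6 * dn r f (v / 6) + rn w (v % 6)) / 6 = dn r f (v / 6) by omega,
          fi_mod (show (6 * dn r f (v / 6) + rn w (v % 6)) % 6 = rn w (v % 6) % 6 by omega)]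
      change gv T L (6 * dn r f (v / 6) + rn w (v % 6)) ↔ _
      rw [e1]
      unfold gv
      rw [if_pos h1, h3]
      exact Iff.rfl

/-- image of a literal -/
def il (r f w l : ℕ) : ℕ := Nat.add (Nat.mul 2 (iv r f w (Nat.div l 2))) (Nat.mod l 2)

/-- mask of the image of a clause -/
def im (r f w : ℕ) (C : List ℕ) : ℕ :=
  @List.rec ℕ (fun _ => ℕ) 0 (fun l _ ih => Nat.lor (Nat.shiftLeft 1 (il r f w l)) ih) C

theorem im_bit {r f w : ℕ} : ∀ (C : List ℕ) {l : ℕ}, l ∈ C → (im r f w C).testBit (il r f w l) = true := by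
  intro C
  induction C with
  | nil => intro l h; cases h
  | cons x C ih =>
    intro l h
    change ((1 <<< il r f w x) ||| im r f w C).testBit (il r f w l) = true
    rw [Nat.testBit_or, Bool.or_eq_true]
    rcases List.mem_cons.1 h with rfl | h
    · left
      rw [Nat.one_shiftLeft, Nat.testBit_two_pow]
      simp
    · exact Or.inr (ih h)

/-- group elements as codes: `r + 6 (f + 2 w)` -/
def imk (e : ℕ) (C : List ℕ) : ℕ :=
  br (vw (Nat.div e 12)) (im (Nat.mod e 6) (Nat.mod (Nat.div e 6) 2) (Nat.div e 12) C) 3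

theorem imk_sat (h : FS T L) {C : List ℕ}
    (hC : ∀ (S' : Type) (T' : Nd → Fin 6 → Prop) (L' : S' → Nd → Fin 6 → Fin 6 → Prop), FS T' L' → GS T' L' C)
    (e : ℕ) {F : ℕ → Prop} : Sat (asg T L F) (imk e C) := by
  unfold imk
  cases hw : vw (Nat.div e 12)
  · rw [br_false]; exact sat_three _
  · rw [br_true]
    have hr : Nat.mod e 6 < 6 := Nat.mod_lt _ (by norm_num)
    have hf : Nat.mod (Nat.div e 6) 2 < 2 := Nat.mod_lt _ (by norm_num)
    generalize Nat.mod e 6 = r at hr
    generalize Nat.mod (Nat.div e 6) 2 = f at hf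
    generalize Nat.div e 12 = w at hw
    obtain ⟨l, h1, h2, h3⟩ := hC S _ _ (h.act (fi r) (Nat.beq f 1) (rr_bij hw) (rr_five hw))
    refine ⟨il r f w l, im_bit C h1, ?_⟩
    obtain ⟨h4, h5⟩ := iv_gv (T := T) (L := L) hr hf hw (show l / 2 < 490 by omega)
    have h6 : il r f w l = 2 * iv r f w (l / 2) + l % 2 := rfl
    have h7 : il r f w l < 980 := by omega
    rw [lit_gl h7]
    unfold gl at h3 ⊢
    have h8 : il r f w l % 2 = l % 2 := by omega
    have h9 : il r f w l / 2 = iv r f w (l / 2) := by omega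
    rw [h8, h9]
    by_cases h10 : l % 2 = 0
    · rw [if_pos h10] at h3 ⊢
      exact h5.2 h3
    · rw [if_neg h10] at h3 ⊢
      exact fun h11 => h3 (h5.1 h11)

end Vale.Agent.P032.H246
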