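import Vale.Agent.P032.H246.Fs
import Vale.Agent.P032.H139.Lrat

/-!
# P032, alternating points: clauses for the seven-node system

Atoms: `6 p + c` = colour `c` in the palette of the node `p`, `42 + 64 p + m` = the mask `m` is an
exact letter of `p`, `490 + ..` = local atoms (letters of one state, or auxiliary atoms).
-/

noncomputable section

namespace Vale.Agent.P032.H246

open Vale.Agent.P032.H139.Lrat (Sat lit br br_true br_false Db build input input_sound steps
  steps_sound check check_sound)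

def fi (n : ℕ) : Fin 6 := ⟨n % 6, Nat.mod_lt _ (by norm_num)⟩

def nd (p : ℕ) : Nd := if p = 0 then none else some (fi (p - 1))

theorem fi_val (c : Fin 6) : fi c.val = c := by
  apply Fin.ext
  change c.val % 6 = c.val
  exact Nat.mod_eq_of_lt c.isLt

theorem fi_mod {a b : ℕ} (h : a % 6 = b % 6) : fi a = fi b := Fin.ext h

variable {S : Type} {T : Nd → Fin 6 → Prop} {L : S → Nd → Fin 6 → Fin 6 → Prop}

/-- `m` is an exact letter of `p` -/
def XX (T : Nd → Fin 6 → Prop) (L : S → Nd → Fin 6 → Fin 6 → Prop) (p : Nd) (m : ℕ) : Prop :=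
  (∃ s j, ∀ c : Fin 6, L s p j c ↔ m.testBit c.val = true) ∧
    ∀ c : Fin 6, m.testBit c.val = true → T p c

/-- global atoms -/
def gv (T : Nd → Fin 6 → Prop) (L : S → Nd → Fin 6 → Fin 6 → Prop) (n : ℕ) : Prop :=
  if n < 42 then T (nd (n / 6)) (fi n) else XX T L (nd ((n - 42) / 64)) ((n - 42) % 64)

/-- the meaning of the atoms, with the local atoms `F` -/
def av (T : Nd → Fin 6 → Prop) (L : S → Nd → Fin 6 → Fin 6 → Prop) (F : ℕ → Prop) (n : ℕ) : Prop :=
  if n < 490 then gv T L n else F (n - 490)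

open Classical in
/-- the assignment -/
def asg (T : Nd → Fin 6 → Prop) (L : S → Nd → Fin 6 → Fin 6 → Prop) (F : ℕ → Prop)
    (n : ℕ) : Bool := decide (av T L F n)

/-- local atoms: letters of the state `s` -/
def lF (L : S → Nd → Fin 6 → Fin 6 → Prop) (s : S) (n : ℕ) : Prop :=
  L s (nd (n / 36)) (fi (n / 6)) (fi n)

theorem asg_g {F : ℕ → Prop} {n : ℕ} (hn : n < 490) : asg T L F n = true ↔ gv T L n := by
  have h1 : av T L F n = gv T L n := if_pos hn
  rw [← h1]
  exact @decide_eq_true_iff _ (Classical.propDecidable _)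

theorem asg_l {F : ℕ → Prop} {n : ℕ} : asg T L F (490 + n) = true ↔ F n := by
  have h1 : av T L F (490 + n) = F n := by
    unfold av
    rw [if_neg (by omega), Nat.add_sub_cancel_left]
  rw [← h1]
  exact @decide_eq_true_iff _ (Classical.propDecidable _)

theorem asg_T {F : ℕ → Prop} {p c : ℕ} (hp : p < 7) (hc : c < 6) :
    asg T L F (6 * p + c) = true ↔ T (nd p) (fi c) := by
  rw [asg_g (by omega)]
  unfold gv
  rw [if_pos (by omega), show (6 * p + c) / 6 = p by omega,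
    fi_mod (show (6 * p + c) % 6 = c % 6 by omega)]

theorem asg_X {F : ℕ → Prop} {p m : ℕ} (hp : p < 7) (hm : m < 64) :
    asg T L F (42 + 64 * p + m) = true ↔ XX T L (nd p) m := by
  rw [asg_g (by omega)]
  unfold gv
  rw [if_neg (by omega), show (42 + 64 * p + m - 42) / 64 = p by omega,
    show (42 + 64 * p + m - 42) % 64 = m by omega]

theorem asg_L {s : S} {p j c : ℕ} (hj : j < 6) (hc : c < 6) :
    asg T L (lF L s) (490 + 36 * p + 6 * j + c) = true ↔ L s (nd p) (fi j) (fi c) := by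
  rw [show 490 + 36 * p + 6 * j + c = 490 + (36 * p + 6 * j + c) by omega, asg_l]
  unfold lF
  rw [show (36 * p + 6 * j + c) / 36 = p by omega,
    fi_mod (show (36 * p + 6 * j + c) / 6 % 6 = j % 6 by omega),
    fi_mod (show (36 * p + 6 * j + c) % 6 = c % 6 by omega)]

theorem bfalse {b : Bool} {P : Prop} (h : b = true ↔ P) (hP : ¬ P) : b = false := by
  cases hb : b
  · rfl
  · exact absurd (h.1 hb) hP

/-! ### masks -/

theorem sat_l {a : ℕ → Bool} {C D : ℕ} (h : Sat a C) : Sat a (Nat.lor C D) := by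
  obtain ⟨l, h1, h2⟩ := h
  refine ⟨l, ?_, h2⟩
  change (C ||| D).testBit l = true
  rw [Nat.testBit_or, h1]; rfl

theorem sat_r {a : ℕ → Bool} {C D : ℕ} (h : Sat a D) : Sat a (Nat.lor C D) := by
  obtain ⟨l, h1, h2⟩ := h
  refine ⟨l, ?_, h2⟩
  change (C ||| D).testBit l = true
  rw [Nat.testBit_or, h1, Bool.or_true]

theorem lit_even (a : ℕ → Bool) (v : ℕ) : lit a (2 * v) = a v := by
  unfold lit
  have h1 : 2 * v % 2 = 0 := by omega
  have h2 : 2 * v / 2 = v := by omega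
  rw [h1, h2]; rfl

theorem lit_odd (a : ℕ → Bool) (v : ℕ) : lit a (2 * v + 1) = !(a v) := by
  unfold lit
  have h1 : (2 * v + 1) % 2 = 1 := by omega
  have h2 : (2 * v + 1) / 2 = v := by omega
  rw [h1, h2]; rfl

theorem sat_three (a : ℕ → Bool) : Sat a 3 := by
  cases h : a 0
  · exact ⟨2 * 0 + 1, by decide, by rw [lit_odd, h]; rfl⟩
  · exact ⟨2 * 0, by decide, by rw [lit_even, h]⟩

/-- a block of literals from the atom `v` on -/
def bl (B v : ℕ) : ℕ := Nat.shiftLeft B (Nat.mul 2 v)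

theorem bit_bl {B v i : ℕ} : (bl B v).testBit (2 * v + i) = B.testBit i := by
  change (B <<< (2 * v)).testBit (2 * v + i) = _
  rw [Nat.testBit_shiftLeft]
  simp

theorem sat_P {a : ℕ → Bool} {B v c : ℕ} (h : B.testBit (2 * c) = true) (ha : a (v + c) = true) :
    Sat a (bl B v) := by
  refine ⟨2 * v + 2 * c, by rw [bit_bl, h], ?_⟩
  rw [show 2 * v + 2 * c = 2 * (v + c) by omega, lit_even, ha]

theorem sat_N {a : ℕ → Bool} {B v c : ℕ} (h : B.testBit (2 * c + 1) = true)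
    (ha : a (v + c) = false) : Sat a (bl B v) := by
  refine ⟨2 * v + (2 * c + 1), by rw [bit_bl, h], ?_⟩
  rw [show 2 * v + (2 * c + 1) = 2 * (v + c) + 1 by omega, lit_odd, ha]; rfl

/-- positive / negative literal of the colour `c` -/
def P1 (c : ℕ) : ℕ := Nat.shiftLeft 1 (Nat.mul 2 c)
def N1 (c : ℕ) : ℕ := Nat.shiftLeft 2 (Nat.mul 2 c)

theorem P1_bit {c : ℕ} : (P1 c).testBit (2 * c) = true := by
  change (1 <<< (2 * c)).testBit (2 * c) = true
  rw [Nat.testBit_shiftLeft]; simp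

theorem N1_bit {c : ℕ} : (N1 c).testBit (2 * c + 1) = true := by
  change (2 <<< (2 * c)).testBit (2 * c + 1) = true
  rw [Nat.testBit_shiftLeft]
  have : 2 * c + 1 - 2 * c = 1 := by omega
  rw [this]; simp; decide

/-- all positive literals but `c` -/
def PA (c : ℕ) : ℕ := Nat.sub 1365 (P1 c)

theorem PA_bit : ∀ c < 6, ∀ d < 6, d ≠ c → (PA c).testBit (2 * d) = true := by decide +kernel

theorem all_bit : ∀ d < 6, (1365).testBit (2 * d) = true := by decide +kernel

theorem alln_bit : ∀ d < 6, (2730).testBit (2 * d + 1) = true := by decide +kernel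

/-- bit of a mask -/
def bt (m c : ℕ) : ℕ := Nat.land (Nat.shiftRight m c) 1

/-- spread mask -/
def sp (m : ℕ) : ℕ := Nat.add (bt m 0) (Nat.add (Nat.mul 4 (bt m 1)) (Nat.add (Nat.mul 16 (bt m 2))
  (Nat.add (Nat.mul 64 (bt m 3)) (Nat.add (Nat.mul 256 (bt m 4)) (Nat.mul 1024 (bt m 5))))))

theorem sp_bit : ∀ m < 64, ∀ c < 6, (sp m).testBit (2 * c) = m.testBit c := by decide +kernel

theorem sp2_bit : ∀ m < 64, ∀ c < 6, (Nat.mul 2 (sp m)).testBit (2 * c + 1) = m.testBit c := by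
  decide +kernel

theorem spc_bit : ∀ m < 64, ∀ c < 6, (Nat.sub 1365 (sp m)).testBit (2 * c) = !(m.testBit c) := by
  decide +kernel

/-! ### atoms -/

def aT (p : ℕ) : ℕ := Nat.mul 6 p
def aX (p m : ℕ) : ℕ := Nat.add (Nat.add 42 (Nat.mul 64 p)) m
def aL (p j : ℕ) : ℕ := Nat.add (Nat.add 490 (Nat.mul 36 p)) (Nat.mul 6 j)

/-- next slot -/
def nx (j : ℕ) : ℕ := Nat.mod (Nat.succ j) 6

theorem fi_nx {j : ℕ} : fi (nx j) = fi j + 1 := by
  apply Fin.ext
  change (j + 1) % 6 % 6 = (j % 6 + 1) % 6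
  omega

/-- facts about palettes -/
def tf (p c : ℕ) : ℕ :=
  br (Nat.beq p 0) (br (Nat.beq c 5) (bl (N1 5) (aT 0)) (bl (P1 c) (aT 0)))
    (br (Nat.beq c 5) (bl (P1 5) (aT p)) (bl 2730 (aT p)))

theorem nd_zero : nd 0 = none := rfl
theorem nd_pos {p : ℕ} (h : p ≠ 0) : nd p = some (fi (p - 1)) := if_neg h

theorem tf_sat (h : FS T L) {F : ℕ → Prop} {p c : ℕ} (hp : p < 7) (hc : c < 6) :
    Sat (asg T L F) (tf p c) := by
  unfold tf
  cases h1 : Nat.beq p 0
  · have h1' : p ≠ 0 := by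
      rw [Bool.eq_false_iff, ne_eq, Nat.beq_eq] at h1; exact h1
    rw [br_false]
    cases h2 : Nat.beq c 5
    · rw [br_false]
      obtain ⟨d, hd⟩ := h.nv' (fi (p - 1))
      refine sat_N (c := d.val) (alln_bit d.val d.isLt) (bfalse (asg_T hp d.isLt) ?_)
      rw [nd_pos h1', fi_val]; exact hd
    · rw [br_true]
      refine sat_P (c := 5) P1_bit ((asg_T hp (by norm_num)).2 ?_)
      rw [nd_pos h1']; exact h.nv _
  · rw [Nat.beq_eq] at h1
    subst h1
    rw [br_true]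
    cases h2 : Nat.beq c 5
    · rw [br_false]
      refine sat_P (c := c) P1_bit ((asg_T (by norm_num) hc).2 ?_)
      rw [nd_zero, h.nz]
      intro e
      rw [Bool.eq_false_iff, ne_eq, Nat.beq_eq] at h2
      apply h2
      have := congrArg Fin.val e
      change c % 6 = 5 at this
      omega
    · rw [br_true]
      refine sat_N (c := 5) N1_bit (bfalse (asg_T (by norm_num) (by norm_num)) ?_)
      rw [nd_zero, h.nz]
      intro e; exact e rfl

/-! ### the clauses for one state -/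

def cNe (p j : ℕ) : ℕ := bl 1365 (aL p j)
def cHex (p j c : ℕ) : ℕ := Nat.lor (bl (N1 c) (aL p j)) (bl (N1 c) (aL p (nx j)))
def cTwo (p j c : ℕ) : ℕ :=
  Nat.lor (bl (N1 c) (aL p j)) (Nat.lor (bl (N1 c) (aT p)) (bl (PA c) (aL p j)))
def cEx (p j m : ℕ) : ℕ :=
  Nat.lor (bl (Nat.sub 1365 (sp m)) (aL p j)) (Nat.lor (bl (Nat.mul 2 (sp m)) (aL p j))
    (Nat.lor (bl (Nat.mul 2 (sp m)) (aT p)) (bl 1 (aX p m))))
def cAlt (j : ℕ) : ℕ := Nat.lor (bl (P1 5) (aL 0 j)) (bl (P1 5) (aL 0 (nx j)))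
def cAdj (p j q c : ℕ) : ℕ := br (ad (nd p) (fi j) (nd q))
  (Nat.lor (bl (N1 c) (aL p j)) (bl (P1 c) (aT q))) 3
def cRh (p q j c : ℕ) : ℕ := br (nb (nd p) (nd q))
  (Nat.lor (bl (N1 c) (aL p j)) (bl (N1 c) (aL q j))) 3

section
variable {s : S} {p j c q m : ℕ}

theorem Lt (hj : j < 6) (hc : c < 6) (h : L s (nd p) (fi j) (fi c)) :
    asg T L (lF L s) (aL p j + c) = true := (asg_L hj hc).2 h
theorem Lf (hj : j < 6) (hc : c < 6) (h : ¬ L s (nd p) (fi j) (fi c)) :
    asg T L (lF L s) (aL p j + c) = false := bfalse (asg_L hj hc) h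
theorem Tt {F : ℕ → Prop} (hp : p < 7) (hc : c < 6) (h : T (nd p) (fi c)) :
    asg T L F (aT p + c) = true := (asg_T hp hc).2 h
theorem Tf {F : ℕ → Prop} (hp : p < 7) (hc : c < 6) (h : ¬ T (nd p) (fi c)) :
    asg T L F (aT p + c) = false := bfalse (asg_T hp hc) h

theorem nx_lt : nx j < 6 := Nat.mod_lt _ (by norm_num)

theorem cNe_sat (h : FS T L) (hj : j < 6) : Sat (asg T L (lF L s)) (cNe p j) := by
  obtain ⟨d, hd⟩ := h.ne s (nd p) (fi j)
  exact sat_P (c := d.val) (all_bit d.val d.isLt) (Lt hj d.isLt (by rw [fi_val]; exact hd))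

theorem cHex_sat (h : FS T L) (hj : j < 6) (hc : c < 6) :
    Sat (asg T L (lF L s)) (cHex p j c) := by
  by_cases h1 : L s (nd p) (fi j) (fi c)
  · refine sat_r (sat_N N1_bit (Lf nx_lt hc ?_))
    rw [fi_nx]; exact h.hex _ _ _ _ h1
  · exact sat_l (sat_N N1_bit (Lf hj hc h1))

theorem cTwo_sat (h : FS T L) (hp : p < 7) (hj : j < 6) (hc : c < 6) :
    Sat (asg T L (lF L s)) (cTwo p j c) := by
  by_cases h1 : L s (nd p) (fi j) (fi c)
  · by_cases h2 : T (nd p) (fi c)
    · obtain ⟨d, h3, h4⟩ := h.two _ _ _ _ h1 h2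
      refine sat_r (sat_r (sat_P (c := d.val) (PA_bit c hc d.val d.isLt ?_)
        (Lt hj d.isLt (by rw [fi_val]; exact h3))))
      intro e; apply h4; rw [← e, fi_val]
    · exact sat_r (sat_l (sat_N N1_bit (Tf hp hc h2)))
  · exact sat_l (sat_N N1_bit (Lf hj hc h1))

theorem cEx_sat (hp : p < 7) (hj : j < 6) (hm : m < 64) :
    Sat (asg T L (lF L s)) (cEx p j m) := by
  by_cases h1 : ∃ d : Fin 6, m.testBit d.val = false ∧ L s (nd p) (fi j) d
  · obtain ⟨d, h2, h3⟩ := h1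
    refine sat_l (sat_P (c := d.val) (by rw [spc_bit m hm d.val d.isLt, h2]; rfl)
      (Lt hj d.isLt (by rw [fi_val]; exact h3)))
  by_cases h4 : ∃ d : Fin 6, m.testBit d.val = true ∧ ¬ L s (nd p) (fi j) d
  · obtain ⟨d, h2, h3⟩ := h4
    refine sat_r (sat_l (sat_N (c := d.val) (by rw [sp2_bit m hm d.val d.isLt, h2])
      (Lf hj d.isLt (by rw [fi_val]; exact h3))))
  by_cases h5 : ∃ d : Fin 6, m.testBit d.val = true ∧ ¬ T (nd p) d
  · obtain ⟨d, h2, h3⟩ := h5
    refine sat_r (sat_r (sat_l (sat_N (c := d.val) (by rw [sp2_bit m hm d.val d.isLt, h2])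
      (Tf hp d.isLt (by rw [fi_val]; exact h3)))))
  · refine sat_r (sat_r (sat_r (sat_P (c := 0) (by decide) ?_)))
    refine (asg_X hp hm).2 ⟨⟨s, fi j, fun c => ?_⟩, fun c hc => ?_⟩
    · push Not at h1 h4
      constructor
      · intro h6
        cases h7 : m.testBit c.val
        · exact absurd h6 (h1 c h7)
        · rfl
      · exact fun h6 => h4 c h6
    · push Not at h5
      exact h5 c hc

theorem cAlt_sat (h : FS T L) (hj : j < 6) : Sat (asg T L (lF L s)) (cAlt j) := by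
  by_cases h1 : L s none (fi j) 5
  · exact sat_l (sat_P (c := 5) P1_bit (Lt hj (by norm_num) h1))
  · have h2 : L s none (fi j + 1) 5 := by
      by_contra h3
      exact h1 ((h.alt s _).2 h3)
    refine sat_r (sat_P (c := 5) P1_bit (Lt nx_lt (by norm_num) ?_))
    rw [fi_nx]; exact h2

theorem cAdj_sat (h : FS T L) (hq : q < 7) (hj : j < 6) (hc : c < 6) :
    Sat (asg T L (lF L s)) (cAdj p j q c) := by
  unfold cAdj
  cases h1 : ad (nd p) (fi j) (nd q)
  · rw [br_false]; exact sat_three _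
  · rw [br_true]
    by_cases h2 : L s (nd p) (fi j) (fi c)
    · exact sat_r (sat_P P1_bit (Tt hq hc (h.adj _ _ _ _ _ h1 h2)))
    · exact sat_l (sat_N N1_bit (Lf hj hc h2))

theorem cRh_sat (h : FS T L) (hj : j < 6) (hc : c < 6) :
    Sat (asg T L (lF L s)) (cRh p q j c) := by
  unfold cRh
  cases h1 : nb (nd p) (nd q)
  · rw [br_false]; exact sat_three _
  · rw [br_true]
    by_cases h2 : L s (nd p) (fi j) (fi c)
    · exact sat_r (sat_N N1_bit (Lf hj hc (h.rh _ _ _ _ _ h1 h2)))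
    · exact sat_l (sat_N N1_bit (Lf hj hc h2))

end

/-- input clauses from codes: `kind + 8 (p + 7 (j + 6 (c + 6 (q + 7 m))))` -/
def inp (n : ℕ) : ℕ :=
  br (Nat.beq (Nat.mod n 8) 0) (cNe (Nat.mod (Nat.div n 8) 7) (Nat.mod (Nat.div n 56) 6)) <|
  br (Nat.beq (Nat.mod n 8) 1) (cHex (Nat.mod (Nat.div n 8) 7) (Nat.mod (Nat.div n 56) 6)
    (Nat.mod (Nat.div n 336) 6)) <|
  br (Nat.beq (Nat.mod n 8) 2) (cTwo (Nat.mod (Nat.div n 8) 7) (Nat.mod (Nat.div n 56) 6)
    (Nat.mod (Nat.div n 336) 6)) <|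
  br (Nat.beq (Nat.mod n 8) 3) (cEx (Nat.mod (Nat.div n 8) 7) (Nat.mod (Nat.div n 56) 6)
    (Nat.mod (Nat.div n 14112) 64)) <|
  br (Nat.beq (Nat.mod n 8) 4) (cAlt (Nat.mod (Nat.div n 56) 6)) <|
  br (Nat.beq (Nat.mod n 8) 5) (cAdj (Nat.mod (Nat.div n 8) 7) (Nat.mod (Nat.div n 56) 6)
    (Nat.mod (Nat.div n 2016) 7) (Nat.mod (Nat.div n 336) 6)) <|
  br (Nat.beq (Nat.mod n 8) 6) (cRh (Nat.mod (Nat.div n 8) 7) (Nat.mod (Nat.div n 2016) 7)
    (Nat.mod (Nat.div n 56) 6) (Nat.mod (Nat.div n 336) 6)) <|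
  tf (Nat.mod (Nat.div n 8) 7) (Nat.mod (Nat.div n 336) 6)

theorem inp_sat (h : FS T L) (s : S) (n : ℕ) : Sat (asg T L (lF L s)) (inp n) := by
  have hp : Nat.mod (Nat.div n 8) 7 < 7 := Nat.mod_lt _ (by norm_num)
  have hj : Nat.mod (Nat.div n 56) 6 < 6 := Nat.mod_lt _ (by norm_num)
  have hc : Nat.mod (Nat.div n 336) 6 < 6 := Nat.mod_lt _ (by norm_num)
  have hq : Nat.mod (Nat.div n 2016) 7 < 7 := Nat.mod_lt _ (by norm_num)
  have hm : Nat.mod (Nat.div n 14112) 64 < 64 := Nat.mod_lt _ (by norm_num)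
  unfold inp
  cases Nat.beq (Nat.mod n 8) 0
  · rw [br_false]
    cases Nat.beq (Nat.mod n 8) 1
    · rw [br_false]
      cases Nat.beq (Nat.mod n 8) 2
      · rw [br_false]
        cases Nat.beq (Nat.mod n 8) 3
        · rw [br_false]
          cases Nat.beq (Nat.mod n 8) 4
          · rw [br_false]
            cases Nat.beq (Nat.mod n 8) 5
            · rw [br_false]
              cases Nat.beq (Nat.mod n 8) 6
              · rw [br_false]; exact tf_sat h hp hc
              · rw [br_true]; exact cRh_sat h hj hc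
            · rw [br_true]; exact cAdj_sat h hq hj hc
          · rw [br_true]; exact cAlt_sat h hj
        · rw [br_true]; exact cEx_sat hp hj hm
      · rw [br_true]; exact cTwo_sat h hp hj hc
    · rw [br_true]; exact cHex_sat h hj hc
  · rw [br_true]; exact cNe_sat h hj

end Vale.Agent.P032.H246
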