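import Vale.Agent.P032.H246.Img

/-!
# P032, alternating points: the clauses without states
-/

noncomputable section

namespace Vale.Agent.P032.H246

open Vale.Agent.P032.H139.Lrat (Sat lit br br_true br_false Db build input input_sound steps
  steps_sound check check_sound)

variable {S : Type} {T : Nd → Fin 6 → Prop} {L : S → Nd → Fin 6 → Fin 6 → Prop}

/-- mask of two colours -/
def pr (a b : ℕ) : ℕ := Nat.lor (Nat.shiftLeft 1 a) (Nat.shiftLeft 1 b)

theorem pr_bit : ∀ a b c : Fin 6, (pr a.val b.val).testBit c.val = true ↔ (c = a ∨ c = b) := by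
  decide +kernel

theorem pr_lt : ∀ a < 6, ∀ b < 6, pr a b < 64 := by decide +kernel

/-- `b` is not in an exact pair with `a` -/
def Wp (T : Nd → Fin 6 → Prop) (L : S → Nd → Fin 6 → Fin 6 → Prop) (p : Nd) (a b : ℕ) : Prop :=
  a ≠ b ∧ T p (fi b) ∧ ¬ XX T L p (pr a b)

/-- at least four colours -/
def Gp (T : Nd → Fin 6 → Prop) (p : Nd) : Prop :=
  ∃ x y : Fin 6, x ≠ y ∧ ∀ c, c ≠ x → c ≠ y → T p c

/-- auxiliary atoms -/
def mF (T : Nd → Fin 6 → Prop) (L : S → Nd → Fin 6 → Fin 6 → Prop) (n : ℕ) : Prop :=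
  if n < 7 then Gp T (nd n) else Wp T L (nd ((n - 7) / 36)) ((n - 7) / 6 % 6) ((n - 7) % 6)

def aG (p : ℕ) : ℕ := Nat.add 490 p
def aW (p a : ℕ) : ℕ := Nat.add (Nat.add 497 (Nat.mul 36 p)) (Nat.mul 6 a)

abbrev Am (T : Nd → Fin 6 → Prop) (L : S → Nd → Fin 6 → Fin 6 → Prop) : ℕ → Bool := asg T L (mF T L)

theorem as_G {p : ℕ} (hp : p < 7) : Am T L (aG p) = true ↔ Gp T (nd p) := by
  change asg T L (mF T L) (490 + p) = true ↔ _
  rw [asg_l]
  unfold mF
  rw [if_pos hp]

theorem as_W {p a b : ℕ} (ha : a < 6) (hb : b < 6) :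
    Am T L (aW p a + b) = true ↔ Wp T L (nd p) a b := by
  change asg T L (mF T L) (497 + 36 * p + 6 * a + b) = true ↔ _
  rw [show 497 + 36 * p + 6 * a + b = 490 + (7 + 36 * p + 6 * a + b) by omega, asg_l]
  unfold mF
  rw [if_neg (by omega), show (7 + 36 * p + 6 * a + b - 7) / 36 = p by omega,
    show (7 + 36 * p + 6 * a + b - 7) / 6 % 6 = a by omega,
    show (7 + 36 * p + 6 * a + b - 7) % 6 = b by omega]

/-- four colours exactly -/
def S4 (P : Fin 6 → Prop) : Prop :=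
  (∀ x, ∃ c, c ≠ x ∧ ¬ P c) ∧ ∀ m < 64, (∃ a b c : Fin 6, a ≠ b ∧ a ≠ c ∧ b ≠ c ∧
    m.testBit a.val = true ∧ m.testBit b.val = true ∧ m.testBit c.val = true) →
    ∃ c : Fin 6, m.testBit c.val = true ∧ P c

/-- number of bits -/
def pc (m : ℕ) : ℕ := Nat.add (bt m 0) (Nat.add (bt m 1) (Nat.add (bt m 2)
  (Nat.add (bt m 3) (Nat.add (bt m 4) (bt m 5)))))

theorem pc_three : ∀ m < 64, pc m = 3 → ∃ a b c : Fin 6, a ≠ b ∧ a ≠ c ∧ b ≠ c ∧
    m.testBit a.val = true ∧ m.testBit b.val = true ∧ m.testBit c.val = true := by decide +kernel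

def mBi (p m m' : ℕ) : ℕ := br (Nat.beq (Nat.land m m') 0)
  (Nat.lor (bl 2 (aX p m)) (bl 2 (aX p m'))) 3
def mSu (p m x : ℕ) : ℕ := br (Nat.beq (bt m x) 1) (Nat.lor (bl 2 (aX p m)) (bl (P1 x) (aT p))) 3
def mBg (p x y : ℕ) : ℕ := br (Nat.beq x y) 3
  (Nat.lor (bl 1 (aG p)) (bl (Nat.mul 2 (Nat.sub (Nat.sub 1365 (P1 x)) (P1 y))) (aT p)))
def mWT (p a b : ℕ) : ℕ := Nat.lor (bl (N1 b) (aW p a)) (bl (P1 b) (aT p))
def mWX (p a b : ℕ) : ℕ := Nat.lor (bl (N1 b) (aW p a)) (bl 2 (aX p (pr a b)))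
def mDg (p a o : ℕ) : ℕ := br (Nat.beq a o) 3
  (Nat.lor (bl 2 (aG p)) (Nat.lor (bl (N1 a) (aT p))
    (bl (Nat.sub (Nat.sub 1365 (P1 a)) (P1 o)) (aW p a))))
def mS1 (p x : ℕ) : ℕ := br (Nat.beq p 0) 3 (bl (Nat.mul 2 (PA x)) (aT p))
def mS2 (p m : ℕ) : ℕ := br (Nat.beq p 0) 3 (br (Nat.beq (pc m) 3) (bl (sp m) (aT p)) 3)

theorem pa2_bit : ∀ c < 6, ∀ d < 6, d ≠ c → (Nat.mul 2 (PA c)).testBit (2 * d + 1) = true := by
  decide +kernel

theorem xy_bit' : ∀ x y d : Fin 6, x = y ∨ d = x ∨ d = y ∨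
    ((Nat.sub (Nat.sub 1365 (P1 x.val)) (P1 y.val)).testBit (2 * d.val) = true ∧
    (Nat.mul 2 (Nat.sub (Nat.sub 1365 (P1 x.val)) (P1 y.val))).testBit (2 * d.val + 1) = true) := by
  decide +kernel

theorem xy_bit (x : ℕ) (hx : x < 6) (y : ℕ) (hy : y < 6) (hxy : x ≠ y) (d : ℕ) (hd : d < 6)
    (h1 : d ≠ x) (h2 : d ≠ y) :
    (Nat.sub (Nat.sub 1365 (P1 x)) (P1 y)).testBit (2 * d) = true ∧
    (Nat.mul 2 (Nat.sub (Nat.sub 1365 (P1 x)) (P1 y))).testBit (2 * d + 1) = true := by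
  rcases xy_bit' ⟨x, hx⟩ ⟨y, hy⟩ ⟨d, hd⟩ with h | h | h | h
  · exact absurd (congrArg Fin.val h) hxy
  · exact absurd (congrArg Fin.val h) h1
  · exact absurd (congrArg Fin.val h) h2
  · exact h

theorem ne_of_beq {a b : ℕ} (h : Nat.beq a b = false) : a ≠ b := by
  intro e
  rw [e, Nat.beq_refl] at h
  cases h

section
variable {p x y m m' : ℕ}

theorem Xt {F : ℕ → Prop} (hp : p < 7) (hm : m < 64) (h : XX T L (nd p) m) :
    asg T L F (aX p m + 0) = true := (asg_X hp hm).2 h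
theorem Xf {F : ℕ → Prop} (hp : p < 7) (hm : m < 64) (h : ¬ XX T L (nd p) m) :
    asg T L F (aX p m + 0) = false := bfalse (asg_X hp hm) h

theorem mBi_sat (h : FS T L) (hp : p < 7) (hm : m < 64) (hm' : m' < 64) :
    Sat (Am T L) (mBi p m m') := by
  unfold mBi
  cases h1 : Nat.beq (Nat.land m m') 0
  · rw [br_false]; exact sat_three _
  · rw [br_true]
    by_cases h2 : XX T L (nd p) m
    · refine sat_r (sat_N (c := 0) (by decide) (Xf hp hm' ?_))
      intro h3
      obtain ⟨⟨s, j, h4⟩, h5⟩ := h2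
      obtain ⟨⟨s', j', h6⟩, h7⟩ := h3
      obtain ⟨c, h8, h9⟩ := h.biex s s' (nd p) j j' (fun c hc => h5 c ((h4 c).1 hc))
        (fun c hc => h7 c ((h6 c).1 hc))
      have h10 := (h4 c).1 h8
      have h11 := (h6 c).1 h9
      have h12 : m &&& m' = 0 := Nat.eq_of_beq_eq_true h1
      have h13 : (m &&& m').testBit c.val = true := by rw [Nat.testBit_and, h10, h11]; rfl
      rw [h12] at h13
      simp at h13
    · exact sat_l (sat_N (c := 0) (by decide) (Xf hp hm h2))

theorem mSu_sat (hp : p < 7) (hm : m < 64) (hx : x < 6) : Sat (Am T L) (mSu p m x) := by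
  unfold mSu
  cases h1 : Nat.beq (bt m x) 1
  · rw [br_false]; exact sat_three _
  · rw [br_true]
    by_cases h2 : XX T L (nd p) m
    · refine sat_r (sat_P P1_bit (Tt hp hx ?_))
      have h3 := Nat.eq_of_beq_eq_true h1
      rw [bt_eq] at h3
      have h4 : m.testBit x = true := by
        by_contra h5
        rw [if_neg h5] at h3
        cases h3
      have h5 := h2.2 ⟨x, hx⟩ h4
      rwa [show (⟨x, hx⟩ : Fin 6) = fi x from Fin.ext (Nat.mod_eq_of_lt hx).symm] at h5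
    · exact sat_l (sat_N (c := 0) (by decide) (Xf hp hm h2))

theorem mBg_sat (hp : p < 7) (hx : x < 6) (hy : y < 6) : Sat (Am T L) (mBg p x y) := by
  unfold mBg
  cases h1 : Nat.beq x y
  · rw [br_false]
    have hxy := ne_of_beq h1
    by_cases h2 : ∃ c : Fin 6, c.val ≠ x ∧ c.val ≠ y ∧ ¬ T (nd p) c
    · obtain ⟨c, h3, h4, h5⟩ := h2
      exact sat_r (sat_N (c := c.val) (xy_bit x hx y hy hxy c.val c.isLt h3 h4).2
        (Tf hp c.isLt (by rw [fi_val]; exact h5)))
    · push Not at h2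
      refine sat_l (sat_P (c := 0) (by decide) ((as_G hp).2 ⟨⟨x, hx⟩, ⟨y, hy⟩, ?_, ?_⟩))
      · intro e; exact hxy (congrArg Fin.val e)
      · intro c hcx hcy
        exact h2 c (fun e => hcx (Fin.ext e)) (fun e => hcy (Fin.ext e))
  · rw [br_true]; exact sat_three _

theorem mWT_sat (hp : p < 7) (hx : x < 6) (hy : y < 6) : Sat (Am T L) (mWT p x y) := by
  by_cases h : Wp T L (nd p) x y
  · exact sat_r (sat_P P1_bit (Tt hp hy h.2.1))
  · exact sat_l (sat_N N1_bit (bfalse (as_W hx hy) h))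

theorem mWX_sat (hp : p < 7) (hx : x < 6) (hy : y < 6) : Sat (Am T L) (mWX p x y) := by
  by_cases h : Wp T L (nd p) x y
  · exact sat_r (sat_N (c := 0) (by decide) (Xf hp (pr_lt x hx y hy) h.2.2))
  · exact sat_l (sat_N N1_bit (bfalse (as_W hx hy) h))

theorem mDg_sat (h : FS T L) (hp : p < 7) (hx : x < 6) (hy : y < 6) : Sat (Am T L) (mDg p x y) := by
  unfold mDg
  cases h1 : Nat.beq x y
  · rw [br_false]
    have hxy := ne_of_beq h1
    by_cases h2 : Gp T (nd p)
    · by_cases h3 : T (nd p) (fi x)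
      · obtain ⟨d, e, h4, h5, h6, h7, h8, h9⟩ := h.deg (nd p) h2 (fi x) h3
        have hfx : (fi x).val = x := Nat.mod_eq_of_lt hx
        have key : ∀ d : Fin 6, T (nd p) d → d ≠ fi x → d.val ≠ y →
            (∀ s j, ¬ ∀ c, L s (nd p) j c ↔ (c = fi x ∨ c = d)) →
            Sat (Am T L) (bl (Nat.sub (Nat.sub 1365 (P1 x)) (P1 y)) (aW p x)) := by
          intro d h10 h11 h12 h13
          have h14 : d.val ≠ x := fun e => h11 (Fin.ext (by rw [hfx]; exact e))
          refine sat_P (c := d.val) (xy_bit x hx y hy hxy d.val d.isLt h14 h12).1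
            ((as_W hx d.isLt).2 ⟨fun e => h14 e.symm, by rw [fi_val]; exact h10, ?_⟩)
          rintro ⟨⟨s, j, h15⟩, -⟩
          refine h13 s j fun c => ?_
          rw [h15 c]
          have := pr_bit (fi x) d c
          rw [hfx] at this
          exact this
        refine sat_r (sat_r ?_)
        by_cases h10 : d.val = y
        · refine key e h5 h7 (fun h11 => h8 (Fin.ext (by rw [h10, h11]))) fun s j => (h9 s j).2
        · exact key d h4 h6 h10 fun s j => (h9 s j).1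
      · exact sat_r (sat_l (sat_N N1_bit (Tf hp hx h3)))
    · exact sat_l (sat_N (c := 0) (by decide) (bfalse (as_G hp) h2))
  · rw [br_true]; exact sat_three _

theorem mS1_sat (h4 : ∀ k, S4 (T (some k))) (hp : p < 7) (hx : x < 6) :
    Sat (Am T L) (mS1 p x) := by
  unfold mS1
  cases h1 : Nat.beq p 0
  · rw [br_false]
    obtain ⟨c, h2, h3⟩ := (h4 (fi (p - 1))).1 ⟨x, hx⟩
    refine sat_N (c := c.val) (pa2_bit x hx c.val c.isLt (fun e => h2 (Fin.ext e)))
      (Tf hp c.isLt ?_)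
    rw [fi_val, nd_pos (ne_of_beq h1)]; exact h3
  · rw [br_true]; exact sat_three _

theorem mS2_sat (h4 : ∀ k, S4 (T (some k))) (hp : p < 7) (hm : m < 64) :
    Sat (Am T L) (mS2 p m) := by
  unfold mS2
  cases h1 : Nat.beq p 0
  · rw [br_false]
    cases h2 : Nat.beq (pc m) 3
    · rw [br_false]; exact sat_three _
    · rw [br_true]
      obtain ⟨c, h5, h6⟩ := (h4 (fi (p - 1))).2 m hm (pc_three m hm (Nat.eq_of_beq_eq_true h2))
      refine sat_P (c := c.val) (by rw [sp_bit m hm c.val c.isLt, h5]) (Tt hp c.isLt ?_)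
      rw [fi_val, nd_pos (ne_of_beq h1)]; exact h6
  · rw [br_true]; exact sat_three _

end

/-- codes: `kind + 16 (p + 7 (x + 6 (y + 6 (m + 64 m'))))`; the kinds `7`, `8` are used if `w` is `true` -/
def inM (w : Bool) (n : ℕ) : ℕ :=
  br (Nat.beq (Nat.mod n 16) 0) (mBi (Nat.mod (Nat.div n 16) 7) (Nat.mod (Nat.div n 4032) 64)
    (Nat.mod (Nat.div n 258048) 64)) <|
  br (Nat.beq (Nat.mod n 16) 1) (mSu (Nat.mod (Nat.div n 16) 7) (Nat.mod (Nat.div n 4032) 64)
    (Nat.mod (Nat.div n 112) 6)) <|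
  br (Nat.beq (Nat.mod n 16) 2) (mBg (Nat.mod (Nat.div n 16) 7) (Nat.mod (Nat.div n 112) 6)
    (Nat.mod (Nat.div n 672) 6)) <|
  br (Nat.beq (Nat.mod n 16) 3) (mWT (Nat.mod (Nat.div n 16) 7) (Nat.mod (Nat.div n 112) 6)
    (Nat.mod (Nat.div n 672) 6)) <|
  br (Nat.beq (Nat.mod n 16) 4) (mWX (Nat.mod (Nat.div n 16) 7) (Nat.mod (Nat.div n 112) 6)
    (Nat.mod (Nat.div n 672) 6)) <|
  br (Nat.beq (Nat.mod n 16) 5) (mDg (Nat.mod (Nat.div n 16) 7) (Nat.mod (Nat.div n 112) 6)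
    (Nat.mod (Nat.div n 672) 6)) <|
  br (Nat.beq (Nat.mod n 16) 6) (tf (Nat.mod (Nat.div n 16) 7) (Nat.mod (Nat.div n 112) 6)) <|
  br w (br (Nat.beq (Nat.mod n 16) 7) (mS1 (Nat.mod (Nat.div n 16) 7) (Nat.mod (Nat.div n 112) 6))
    (mS2 (Nat.mod (Nat.div n 16) 7) (Nat.mod (Nat.div n 4032) 64))) 3

theorem inM_sat (h : FS T L) {w : Bool} (h4 : w = true → ∀ k, S4 (T (some k))) (n : ℕ) :
    Sat (Am T L) (inM w n) := by
  have hp : Nat.mod (Nat.div n 16) 7 < 7 := Nat.mod_lt _ (by norm_num)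
  have hx : Nat.mod (Nat.div n 112) 6 < 6 := Nat.mod_lt _ (by norm_num)
  have hy : Nat.mod (Nat.div n 672) 6 < 6 := Nat.mod_lt _ (by norm_num)
  have hm : Nat.mod (Nat.div n 4032) 64 < 64 := Nat.mod_lt _ (by norm_num)
  have hm' : Nat.mod (Nat.div n 258048) 64 < 64 := Nat.mod_lt _ (by norm_num)
  unfold inM
  cases Nat.beq (Nat.mod n 16) 0
  · rw [br_false]
    cases Nat.beq (Nat.mod n 16) 1
    · rw [br_false]
      cases Nat.beq (Nat.mod n 16) 2
      · rw [br_false]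
        cases Nat.beq (Nat.mod n 16) 3
        · rw [br_false]
          cases Nat.beq (Nat.mod n 16) 4
          · rw [br_false]
            cases Nat.beq (Nat.mod n 16) 5
            · rw [br_false]
              cases Nat.beq (Nat.mod n 16) 6
              · rw [br_false]
                cases w
                · rw [br_false]; exact sat_three _
                · rw [br_true]
                  cases Nat.beq (Nat.mod n 16) 7
                  · rw [br_false]; exact mS2_sat (h4 rfl) hp hm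
                  · rw [br_true]; exact mS1_sat (h4 rfl) hp hx
              · rw [br_true]; exact tf_sat h hp hx
            · rw [br_true]; exact mDg_sat h hp hx hy
          · rw [br_true]; exact mWX_sat hp hx hy
        · rw [br_true]; exact mWT_sat hp hx hy
      · rw [br_true]; exact mBg_sat hp hx hy
    · rw [br_true]; exact mSu_sat hp hm hx
  · rw [br_true]; exact mBi_sat h hp hm hm'

/-- the palette of the first neighbour: the colours less than `n` and `5` -/
def pt (n : ℕ) (c : ℕ) : ℕ := br (br (Nat.blt c n) true (Nat.beq c 5)) (bl (P1 c) (aT 1)) (bl (N1 c) (aT 1))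

theorem pt_sat {n : ℕ} (h : ∀ c : Fin 6, T (some 0) c ↔ (c.val < n ∨ c = 5)) {F : ℕ → Prop} (c : Fin 6) :
    Sat (asg T L F) (pt n c.val) := by
  unfold pt
  have e : nd 1 = some 0 := rfl
  cases h1 : br (Nat.blt c.val n) true (Nat.beq c.val 5)
  · rw [br_false]
    refine sat_N N1_bit (Tf (by norm_num) c.isLt ?_)
    rw [fi_val, e, h]
    rintro (h2 | h2)
    · have h3 : Nat.blt c.val n = true := by rw [Nat.blt_eq]; exact h2
      rw [h3, br_true] at h1
      cases h1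
    · rw [h2] at h1
      cases h3 : Nat.blt (5 : Fin 6).val n
      · rw [h3, br_false] at h1
        exact absurd h1 (by decide)
      · rw [h3, br_true] at h1
        cases h1
  · rw [br_true]
    refine sat_P P1_bit (Tt (by norm_num) c.isLt ?_)
    rw [fi_val, e, h]
    cases h3 : Nat.blt c.val n
    · rw [h3, br_false] at h1
      exact Or.inr (Fin.ext (Nat.eq_of_beq_eq_true h1))
    · rw [Nat.blt_eq] at h3
      exact Or.inl h3

/-- masks of a list of codes, then `tl` -/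
def inlM (w : Bool) (cs tl : List ℕ) : List ℕ :=
  @List.rec ℕ (fun _ => List ℕ) tl (fun x _ ih => inM w x :: ih) cs

/-- images of the clause `C` for the elements `es`, then `tl` -/
def ims (C : List ℕ) (es tl : List ℕ) : List ℕ :=
  @List.rec ℕ (fun _ => List ℕ) tl (fun e _ ih => imk e C :: ih) es

theorem inlM_sat (h : FS T L) {w : Bool} (h4 : w = true → ∀ k, S4 (T (some k))) {tl : List ℕ}
    (ht : ∀ C ∈ tl, Sat (Am T L) C) : ∀ cs : List ℕ, ∀ C ∈ inlM w cs tl, Sat (Am T L) C := by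
  intro cs
  induction cs with
  | nil => exact ht
  | cons x cs ih =>
    intro C hC
    have hC : C ∈ inM w x :: inlM w cs tl := hC
    rcases List.mem_cons.1 hC with h1 | h2
    · rw [h1]; exact inM_sat h h4 x
    · exact ih C h2

/-- a lemma -/
def Lm (C : List ℕ) : Prop :=
  ∀ (S' : Type) (T' : Nd → Fin 6 → Prop) (L' : S' → Nd → Fin 6 → Fin 6 → Prop), FS T' L' → GS T' L' C

theorem ims_sat (h : FS T L) {D : List ℕ} (hD : Lm D) {tl : List ℕ}
    (ht : ∀ C ∈ tl, Sat (Am T L) C) : ∀ es : List ℕ, ∀ C ∈ ims D es tl, Sat (Am T L) C := by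
  intro es
  induction es with
  | nil => exact ht
  | cons x es ih =>
    intro C hC
    have hC : C ∈ imk x D :: ims D es tl := hC
    rcases List.mem_cons.1 hC with h1 | h2
    · rw [h1]; exact imk_sat h hD x
    · exact ih C h2

/-- the facts about the palette of the first neighbour -/
def pts (n : ℕ) : List ℕ := [pt n 0, pt n 1, pt n 2, pt n 3, pt n 4, pt n 5]

theorem pts_sat {n : ℕ} (h : ∀ c : Fin 6, T (some 0) c ↔ (c.val < n ∨ c = 5)) {F : ℕ → Prop} :
    ∀ C ∈ pts n, Sat (asg T L F) C := by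
  intro C hC
  simp only [pts, List.mem_cons, List.not_mem_nil, or_false] at hC
  rcases hC with h1 | h1 | h1 | h1 | h1 | h1 <;> rw [h1]
  · exact pt_sat h 0
  · exact pt_sat h 1
  · exact pt_sat h 2
  · exact pt_sat h 3
  · exact pt_sat h 4
  · exact pt_sat h 5

end Vale.Agent.P032.H246
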