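import Vale.Agent.P032.H246.CertM0
import Vale.Agent.P032.H246.CertM1
import Vale.Agent.P032.H246.CertM2
import Vale.Agent.P032.H246.CertM3
import Vale.Agent.P032.H246.CertM4

/-!
# P032, alternating points: the finite system with seven nodes has no model
-/

noncomputable section

namespace Vale.Agent.P032.H246

open Vale.Agent.P032.H89

/-- permutations of the colours which fix `5`, one for each subset of the others -/
def ws : List ℕ := [181896, 181896, 181889, 181896, 181826, 181840, 181777, 181896, 181315, 181336, 181273, 181448, 180762, 180944, 180433, 181896, 177220, 177248, 177185, 177416, 176674, 176912, 176401, 178312, 172579, 172824, 172313, 174280, 168218, 170192, 166097, 181896]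

/-- four elements exactly -/
def S4' (P : Fin 6 → Prop) : Prop :=
  (∀ x, ∃ c, c ≠ x ∧ ¬ P c) ∧ ∀ x y z : Fin 6, x ≠ y → x ≠ z → y ≠ z → P x ∨ P y ∨ P z

theorem S4'.s4 {P : Fin 6 → Prop} (h : S4' P) : S4 P := by
  refine ⟨h.1, ?_⟩
  rintro m - ⟨a, b, c, h1, h2, h3, h4, h5, h6⟩
  rcases h.2 a b c h1 h2 h3 with h7 | h7 | h7
  · exact ⟨a, h4, h7⟩
  · exact ⟨b, h5, h7⟩
  · exact ⟨c, h6, h7⟩

theorem S4'.comp {P : Fin 6 → Prop} (h : S4' P) {ρ : Fin 6 → Fin 6} (hρ : Function.Bijective ρ) :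
    S4' (fun c => P (ρ c)) := by
  refine ⟨fun x => ?_, fun x y z h1 h2 h3 => ?_⟩
  · obtain ⟨c, h1, h2⟩ := h.1 (ρ x)
    obtain ⟨c', rfl⟩ := hρ.2 c
    exact ⟨c', fun e => h1 (by rw [e]), h2⟩
  · exact h.2 _ _ _ (fun e => h1 (hρ.1 e)) (fun e => h2 (hρ.1 e)) (fun e => h3 (hρ.1 e))

/-- check of a normal form -/
def okw (b : Fin 6 → Bool) (n w : ℕ) : Bool :=
  vw w && (List.finRange 6).all fun c => b (rr w c) == (decide (c.val < n) || c == 5)

theorem okw_spec {b : Fin 6 → Bool} {n w : ℕ} (h : okw b n w = true) :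
    vw w = true ∧ ∀ c : Fin 6, b (rr w c) = true ↔ (c.val < n ∨ c = 5) := by
  unfold okw at h
  rw [Bool.and_eq_true, List.all_eq_true] at h
  refine ⟨h.1, fun c => ?_⟩
  have h2 := h.2 c (List.mem_finRange c)
  rw [beq_iff_eq] at h2
  rw [h2, Bool.or_eq_true, decide_eq_true_eq, beq_iff_eq]

def c1 (b : Fin 6 → Bool) : Bool :=
  ws.any (okw b 0) || (ws.any (okw b 1) || (ws.any (okw b 2) || ws.any (okw b 4)))

def c2 (b : Fin 6 → Bool) : Bool :=
  ((List.finRange 6).all fun x => (List.finRange 6).any fun c => !(c == x) && !(b c)) &&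
    (((List.finRange 6).all fun x => (List.finRange 6).all fun y => (List.finRange 6).all fun z =>
      (x == y) || (x == z) || (y == z) || b x || b y || b z) && ws.any (okw b 3))

theorem cls : ∀ b : Fin 6 → Bool, b 5 = true → (∃ c, b c = false) → (c1 b || c2 b) = true := by
  decide +kernel

theorem clsP {P : Fin 6 → Prop} (h5 : P 5) (hn : ∃ c, ¬ P c) :
    (∃ w, vw w = true ∧ ∃ n ∈ [0, 1, 2, 4], ∀ c : Fin 6, P (rr w c) ↔ (c.val < n ∨ c = 5)) ∨
    (S4' P ∧ ∃ w, vw w = true ∧ ∀ c : Fin 6, P (rr w c) ↔ (c.val < 3 ∨ c = 5)) := by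
  classical
  obtain ⟨b, hb⟩ : ∃ b : Fin 6 → Bool, ∀ c, b c = true ↔ P c :=
    ⟨fun c => decide (P c), fun c => decide_eq_true_iff⟩
  have hf : ∀ c, b c = false → ¬ P c := fun c h e => by
    rw [(hb c).2 e] at h; cases h
  have key : ∀ n, ws.any (okw b n) = true →
      ∃ w, vw w = true ∧ ∀ c : Fin 6, P (rr w c) ↔ (c.val < n ∨ c = 5) := by
    intro n h
    rw [List.any_eq_true] at h
    obtain ⟨w, -, hw⟩ := h
    obtain ⟨h1, h2⟩ := okw_spec hw
    exact ⟨w, h1, fun c => by rw [← h2 c]; exact (hb _).symm⟩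
  have h0 := cls b ((hb 5).2 h5) (by
    obtain ⟨c, hc⟩ := hn
    refine ⟨c, ?_⟩
    cases h : b c
    · rfl
    · exact absurd ((hb c).1 h) hc)
  rw [Bool.or_eq_true] at h0
  rcases h0 with h0 | h0
  · left
    unfold c1 at h0
    rw [Bool.or_eq_true, Bool.or_eq_true, Bool.or_eq_true] at h0
    rcases h0 with h0 | h0 | h0 | h0
    · obtain ⟨w, h1, h2⟩ := key 0 h0
      exact ⟨w, h1, 0, by simp, h2⟩
    · obtain ⟨w, h1, h2⟩ := key 1 h0
      exact ⟨w, h1, 1, by simp, h2⟩
    · obtain ⟨w, h1, h2⟩ := key 2 h0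
      exact ⟨w, h1, 2, by simp, h2⟩
    · obtain ⟨w, h1, h2⟩ := key 4 h0
      exact ⟨w, h1, 4, by simp, h2⟩
  · right
    unfold c2 at h0
    rw [Bool.and_eq_true, Bool.and_eq_true] at h0
    obtain ⟨h1, h2, h3⟩ := h0
    refine ⟨⟨fun x => ?_, fun x y z h5 h6 h7 => ?_⟩, key 3 h3⟩
    · rw [List.all_eq_true] at h1
      have h4 := h1 x (List.mem_finRange x)
      rw [List.any_eq_true] at h4
      obtain ⟨c, -, h5⟩ := h4
      rw [Bool.and_eq_true, Bool.not_eq_true', Bool.not_eq_true'] at h5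
      refine ⟨c, ?_, hf c h5.2⟩
      intro e
      rw [e] at h5
      simp at h5
    · rw [List.all_eq_true] at h2
      have h8 := h2 x (List.mem_finRange x)
      rw [List.all_eq_true] at h8
      have h9 := h8 y (List.mem_finRange y)
      rw [List.all_eq_true] at h9
      have h10 := h9 z (List.mem_finRange z)
      simp only [Bool.or_eq_true, beq_iff_eq] at h10
      rcases h10 with ((((h10 | h10) | h10) | h10) | h10) | h10
      · exact absurd h10 h5
      · exact absurd h10 h6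
      · exact absurd h10 h7
      · exact Or.inl ((hb _).1 h10)
      · exact Or.inr (Or.inl ((hb _).1 h10))
      · exact Or.inr (Or.inr ((hb _).1 h10))

/-- **The normalised system has no model.** -/
theorem no_fs {S : Type} {T : Nd → Fin 6 → Prop} {L : S → Nd → Fin 6 → Fin 6 → Prop}
    (h : FS T L) : False := by
  by_cases hA : ∃ k w, vw w = true ∧ ∃ n ∈ [0, 1, 2, 4], ∀ c : Fin 6,
      T (some k) (rr w c) ↔ (c.val < n ∨ c = 5)
  · obtain ⟨k, w, hw, n, hn, hp⟩ := hA
    have h1 := h.act k false (rr_bij hw) (rr_five hw)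
    have h2 : ∀ c : Fin 6, T (dp k false (some 0)) (rr w c) ↔ (c.val < n ∨ c = 5) := by
      intro c
      have e : dp k false (some 0) = some k := by simp [dp, dj]
      rw [e]; exact hp c
    simp only [List.mem_cons, List.not_mem_nil, or_false] at hn
    rcases hn with rfl | rfl | rfl | rfl
    · exact M0.no h1 h2
    · exact M1.no h1 h2
    · exact M2.no h1 h2
    · exact M4.no h1 h2
  · have h1 : ∀ k, S4' (T (some k)) ∧ ∃ w, vw w = true ∧ ∀ c : Fin 6,
        T (some k) (rr w c) ↔ (c.val < 3 ∨ c = 5) := by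
      intro k
      rcases clsP (h.nv k) (h.nv' k) with ⟨w, h2, h3⟩ | h2
      · exact absurd ⟨k, w, h2, h3⟩ hA
      · exact h2
    obtain ⟨-, w, hw, hp⟩ := h1 0
    have h2 := h.act 0 false (rr_bij hw) (rr_five hw)
    refine M3.no h2 (fun c => ?_) (fun k => ?_)
    · have e : dp 0 false (some 0) = some 0 := by simp [dp, dj]
      change T (dp 0 false (some 0)) (rr w c) ↔ _
      rw [e]; exact hp c
    · exact ((h1 (dj 0 false k)).1.comp (rr_bij hw)).s4

/-- **The finite system with seven nodes has no model.** -/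
theorem no_sys (m : Fin 6) (N : Option (Fin 6) → Set (Fin 6)) (Q : Set State) (h : Sys m N Q) :
    False := by
  have h1 : (Equiv.swap 5 m) 5 = m := Equiv.swap_apply_left 5 m
  exact no_fs (FS.of_sys h (Equiv.swap 5 m) h1)

end Vale.Agent.P032.H246
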